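import Vale.Agent.P043.Aperiodic.Euclid

/-!
The block of the aperiodic tile of `ℝ³`: the unit cube with, on each axis, a dent on the lower face
and the same shape glued on the upper face. The dent of the first axis is a ridge over the whole
height, so blocks may slide vertically against their neighbours in that direction. Four thin
columns are the places of the holes.

All transversal ranges of dents and hole footprints lie in `[1/5, 2/5)`.
-/

namespace Vale.Agent.P043.Three

open Vale.Agent.P043.Aperiodic Vale.Agent.P043.Aperiodic.Euclid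

/-- Points of space. -/
abbrev Pt : Type := Fin 3 → ℝ

/-- Lower corner of the dent of axis `a`. -/
noncomputable def dlo (a l : Fin 3) : ℝ := if l = a then 0 else if a = 0 ∧ l = 2 then 0 else 1 / 5

/-- Upper corner of the dent of axis `a`. -/
noncomputable def dhi (a l : Fin 3) : ℝ :=
  if l = a then 1 / 20 else if a = 0 ∧ l = 2 then 1 else 3 / 10

/-- The dent of axis `a`. -/
def dent3 (a : Fin 3) : Set Pt := {y | ∀ l, dlo a l ≤ y l ∧ y l < dhi a l}

/-- The block. -/
def block : Set Pt := (cube \ ⋃ a, dent3 a) ∪ ⋃ a, {x | x - axisVec a ∈ dent3 a}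

/-- The footprint of hole `k` in the first two coordinates, as a column over one unit of height. -/
def holeCol (k : Fin 4) : Set Pt :=
  {y | 7 / 20 + (k : ℕ) / 200 ≤ y 0 ∧ y 0 < 7 / 20 + (k : ℕ) / 200 + 1 / 300 ∧
    7 / 20 ≤ y 1 ∧ y 1 < 3 / 8 ∧ 0 ≤ y 2 ∧ y 2 < 1}

/-- The block without its holes. -/
def blockCore : Set Pt := block \ ⋃ k, holeCol k

end Vale.Agent.P043.Three
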