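import Vale.Agent.P043.Three.Tile

/-!
A tiling by the tile whose translates lie over one coset of `ℤ²` gives a solution of the five
equations: over the middle of the cells one sees the tile of the blocks, over each footprint the
tile of that hole.
-/

open MeasureTheory Set

namespace Vale.Agent.P043.Three

open Vale.Agent.P043.Aperiodic Vale.Agent.P043.Aperiodic.Euclid

namespace Descend

/-- The open box over the cell `n`, rectangle `(u₀, u₁) × (v₀, v₁)` and heights `(a, b)`. -/
def box (o : Pt) (n : Hor) (u₀ u₁ v₀ v₁ a b : ℝ) : Set Pt :=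
  {x | (u₀ < x 0 - o 0 - n.1 ∧ x 0 - o 0 - n.1 < u₁) ∧
    (v₀ < x 1 - o 1 - n.2 ∧ x 1 - o 1 - n.2 < v₁) ∧ a < x 2 - o 2 ∧ x 2 - o 2 < b}

theorem isOpen_box (o : Pt) (n : Hor) (u₀ u₁ v₀ v₁ a b : ℝ) :
    IsOpen (box o n u₀ u₁ v₀ v₁ a b) := by
  simp only [box, ofPred_and]
  exact ((isOpen_lt continuous_const (by fun_prop)).inter
    (isOpen_lt (by fun_prop) continuous_const)).inter
    (((isOpen_lt continuous_const (by fun_prop)).inter
      (isOpen_lt (by fun_prop) continuous_const)).inter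
      ((isOpen_lt continuous_const (by fun_prop)).inter
        (isOpen_lt (by fun_prop) continuous_const)))

theorem box_nonempty (o : Pt) (n : Hor) {u₀ u₁ v₀ v₁ a b : ℝ} (hu : u₀ < u₁) (hv : v₀ < v₁)
    (h : a < b) : (box o n u₀ u₁ v₀ v₁ a b).Nonempty := by
  refine ⟨![o 0 + n.1 + (u₀ + u₁) / 2, o 1 + n.2 + (v₀ + v₁) / 2, o 2 + (a + b) / 2], ?_⟩
  simp [box]
  refine ⟨⟨?_, ?_⟩, ⟨?_, ?_⟩, ?_, ?_⟩ <;> linarith

/-- A tile seen over a rectangle in every cell gives its equation. -/
theorem pieceTiles_of_region {ι : Type*} (P : ι → Piece)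
    (hinj : Function.Injective fun i => (P i).cell) {Ω : Set Pt} {A : Set Pt} {o : Pt}
    (hA : RTiles Ω A) (hint : ∀ a ∈ A, ∃ n : Hor, a 0 = o 0 + n.1 ∧ a 1 = o 1 + n.2)
    {u₀ u₁ v₀ v₁ : ℝ} (hu : u₀ < u₁) (hv : v₀ < v₁)
    (hF : ∀ (x : Pt) (n : Hor), u₀ < x 0 - n.1 → x 0 - n.1 < u₁ → v₀ < x 1 - n.2 →
      x 1 - n.2 < v₁ → (x ∈ Ω ↔ Hit P n (x 2))) :
    PieceTiles P {p | o + toPt p ∈ A} := fun n => by
  constructor
  · rintro ⟨i, s⟩ hi ⟨j, s'⟩ hj t hi1 hi2 hj1 hj2
    dsimp only at hi1 hi2 hj1 hj2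
    simp only [colIdx, mem_ofPred_eq] at hi hj
    have same : o + toPt (n - (P i).cell, s) = o + toPt (n - (P j).cell, s') := by
      by_contra hne
      set a := max (s + (P i).lo) (s' + (P j).lo)
      set b := min (s + (P i).lo + (P i).len) (s' + (P j).lo + (P j).len)
      have hab : a < b :=
        (max_lt hi1 hj1).trans (lt_min hi2 hj2)
      have := le_max_left (s + (P i).lo) (s' + (P j).lo)
      have := le_max_right (s + (P i).lo) (s' + (P j).lo)
      have := min_le_left (s + (P i).lo + (P i).len) (s' + (P j).lo + (P j).len)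
      have := min_le_right (s + (P i).lo + (P i).len) (s' + (P j).lo + (P j).len)
      refine ((isOpen_box o n u₀ u₁ v₀ v₁ a b).measure_pos volume
        (box_nonempty o n hu hv hab)).ne' (measure_mono_null ?_ (hA.2 hi hj hne))
      rintro x ⟨⟨x1, x2⟩, ⟨y1, y2⟩, z1, z2⟩
      have mem : ∀ (k : ι) (r : ℝ), r + (P k).lo < x 2 - o 2 →
          x 2 - o 2 < r + (P k).lo + (P k).len → x - (o + toPt (n - (P k).cell, r)) ∈ Ω := by
        intro k r h1 h2
        refine (hF _ (P k).cell ?_ ?_ ?_ ?_).2 ⟨k, rfl, ?_, ?_⟩ <;>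
          simp only [Pi.sub_apply, Pi.add_apply, toPt_zero, toPt_one, toPt_two, Prod.fst_sub,
            Prod.snd_sub, Int.cast_sub] <;> linarith
      exact ⟨mem i s (by linarith) (by linarith), mem j s' (by linarith) (by linarith)⟩
    have e := add_left_cancel same
    have e0 := congrFun e 0
    have e1 := congrFun e 1
    have e2 := congrFun e 2
    simp only [toPt_zero, toPt_one, toPt_two, Int.cast_inj, Prod.fst_sub, Prod.snd_sub] at e0 e1 e2
    have hc : (P i).cell = (P j).cell := Prod.ext (by omega) (by omega)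
    rw [hinj hc, e2]
  · intro a b hab
    obtain ⟨x, ⟨⟨x1, x2⟩, ⟨y1, y2⟩, z1, z2⟩, c, hc, hxc⟩ :=
      exists_mem_of_ae (isOpen_box o n u₀ u₁ v₀ v₁ a b) (box_nonempty o n hu hv hab) hA.1
    obtain ⟨m, hm0, hm1⟩ := hint c hc
    obtain ⟨i, hcell, l1, l2⟩ := (hF (x - c) (n - m)
      (by simp [hm0]; linarith) (by simp [hm0]; linarith)
      (by simp [hm1]; linarith) (by simp [hm1]; linarith)).1 hxc
    simp only [Pi.sub_apply] at l1 l2
    refine ⟨(i, c 2 - o 2), ?_,
      (x 2 - o 2 + min b (c 2 - o 2 + (P i).lo + (P i).len)) / 2, ?_⟩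
    · simp only [colIdx, mem_ofPred_eq, hcell, sub_sub_cancel]
      convert hc using 1
      funext l
      fin_cases l <;> simp [hm0, hm1]
    · have h2 : x 2 - o 2 < min b (c 2 - o 2 + (P i).lo + (P i).len) :=
        lt_min z2 (by linarith)
      have := min_le_left b (c 2 - o 2 + (P i).lo + (P i).len)
      have := min_le_right b (c 2 - o 2 + (P i).lo + (P i).len)
      refine ⟨?_, ?_, ?_, ?_⟩ <;> linarith

theorem lineT_injective {g : Hor} (β : ℝ) (hg : g ≠ 0) :
    Function.Injective fun i => (lineT g β i).cell := fun i j h => by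
  have h' : ((i : ℕ) : ℤ) • g = ((j : ℕ) : ℤ) • g := h
  exact Fin.ext (by exact_mod_cast smul_left_injective ℤ hg h')

theorem raisedT_injective : Function.Injective fun i => (raisedT i).cell := by
  intro i j h
  fin_cases i <;> fin_cases j <;> first | rfl | simp [raisedT, lineT, Prod.ext_iff] at h

theorem splitT_injective (κ : ℝ) : Function.Injective fun i => (splitT κ i).cell := by
  intro i j h
  fin_cases i <;> fin_cases j <;> first | rfl | simp [splitT, lineT, Prod.ext_iff] at h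

end Descend

/-- A tiling by the tile over one coset of `ℤ²` gives a solution of the five equations. -/
theorem solves_of_rtiles {κ : ℝ} (hκ0 : 0 < κ) (hκ1 : κ < 1 / 4) {A : Set Pt} {o : Pt}
    (hA : RTiles (omega3 κ) A)
    (hint : ∀ a ∈ A, ∃ n : Hor, a 0 = o 0 + n.1 ∧ a 1 = o 1 + n.2) :
    Solves κ {p | o + toPt p ∈ A} := by
  have foot : ∀ (k : Fin 4) {ι : Type} (P : ι → Piece),
      Function.Injective (fun i => (P i).cell) → (∀ n t, HoleHit κ k n t ↔ Hit P n t) →
      PieceTiles P {p | o + toPt p ∈ A} := fun k ι P hinj hk =>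
    Descend.pieceTiles_of_region P hinj hA hint (u₀ := 7 / 20 + (k : ℕ) / 200)
      (u₁ := 7 / 20 + (k : ℕ) / 200 + 1 / 300) (v₀ := 7 / 20) (v₁ := 3 / 8) (by linarith)
      (by norm_num) fun x n a1 a2 b1 b2 =>
        (mem_omega3_hole (k := k) ⟨a1.le, a2, b1.le, b2⟩).trans (hk n _)
  refine ⟨?_, foot 0 raisedT Descend.raisedT_injective fun n t => by simp [HoleHit],
    foot 1 _ (Descend.lineT_injective κ (by simp)) fun n t => by simp [HoleHit],
    foot 2 _ (Descend.lineT_injective κ (by simp)) fun n t => by simp [HoleHit],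
    foot 3 _ (Descend.splitT_injective κ) fun n t => by simp [HoleHit]⟩
  exact Descend.pieceTiles_of_region _ (Descend.lineT_injective 0 (by simp)) hA hint
    (u₀ := 1 / 2) (u₁ := 1) (v₀ := 1 / 2) (v₁ := 1) (by norm_num) (by norm_num)
    fun x n a1 a2 b1 b2 => mem_omega3_mid a1 a2 b1 b2

end Vale.Agent.P043.Three
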