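import Vale.Agent.P043.Three.System

/-!
The common solution: stacks on six classes modulo `8`, single points with vertical drift on `4ℤ²`.
Every column is tiled exactly.
-/

namespace Vale.Agent.P043.Three

/-- The classes that carry stacks. -/
def isStack (x y : ZMod 8) : Prop :=
  (x, y) = (1, 1) ∨ (x, y) = (2, 3) ∨ (x, y) = (3, 6) ∨ (x, y) = (5, 2) ∨ (x, y) = (6, 5) ∨
    (x, y) = (7, 7)

/-- The classes that carry single points. -/
def isBlock (x y : ZMod 8) : Prop := (x = 0 ∨ x = 4) ∧ (y = 0 ∨ y = 4)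

instance (x y : ZMod 8) : Decidable (isStack x y) := by unfold isStack; infer_instance

instance (x y : ZMod 8) : Decidable (isBlock x y) := by unfold isBlock; infer_instance

/-- Stack cell. -/
def StackCell (z : Hor) : Prop := isStack (z.1 : ZMod 8) (z.2 : ZMod 8)

/-- Single cell. -/
def BlockCell (z : Hor) : Prop := isBlock (z.1 : ZMod 8) (z.2 : ZMod 8)

/-- The common solution. -/
def sol (κ : ℝ) : Set (Hor × ℝ) :=
  {p | (StackCell p.1 ∧ ∃ k : ℤ, p.2 = k) ∨
    (BlockCell p.1 ∧ ∃ k : ℤ, p.2 = ((p.1.1 / 4 : ℤ) : ℝ) * κ + 2 * k)}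

theorem stack_not_block {z : Hor} (h : StackCell z) : ¬BlockCell z :=
  (show ∀ x y, isStack x y → ¬isBlock x y by decide) _ _ h

theorem mem_sol_stack {κ : ℝ} {z : Hor} {a : ℝ} (h : StackCell z) :
    (z, a) ∈ sol κ ↔ ∃ k : ℤ, a = k :=
  ⟨fun hm => hm.elim (fun h' => h'.2) (fun h' => absurd h'.1 (stack_not_block h)),
    fun hk => Or.inl ⟨h, hk⟩⟩

theorem mem_sol_block {κ : ℝ} {z : Hor} {a : ℝ} (h : BlockCell z) :
    (z, a) ∈ sol κ ↔ ∃ k : ℤ, a = ((z.1 / 4 : ℤ) : ℝ) * κ + 2 * k :=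
  ⟨fun hm => hm.elim (fun h' => absurd h (stack_not_block h'.1)) (fun h' => h'.2),
    fun hk => Or.inr ⟨h, hk⟩⟩

theorem div_four_add (z : Hor) (m : ℤ) :
    (z.1 + 4 * m) / 4 = z.1 / 4 + m := by omega

theorem sol_shift_two {κ : ℝ} {z : Hor} {a : ℝ} (h : (z, a) ∈ sol κ) (m : ℤ) :
    (z, a + 2 * m) ∈ sol κ := by
  rcases h with ⟨hc, k, hk⟩ | ⟨hc, k, hk⟩
  · exact Or.inl ⟨hc, k + 2 * m, by dsimp only at hk ⊢; rw [hk]; push_cast; ring⟩
  · exact Or.inr ⟨hc, k + m, by dsimp only at hk ⊢; rw [hk]; push_cast; ring⟩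

/-- Every point of every column lies in exactly one translated piece. -/
def Exact {ι : Type*} (P : ι → Piece) (A : Set (Hor × ℝ)) : Prop :=
  ∀ (n : Hor) (t : ℝ), ∃! q : ι × ℝ,
    q ∈ colIdx P A n ∧ q.2 + (P q.1).lo ≤ t ∧ t < q.2 + (P q.1).lo + (P q.1).len

theorem Exact.pieceTiles {ι : Type*} {P : ι → Piece} {A : Set (Hor × ℝ)} (h : Exact P A) :
    PieceTiles P A := by
  intro n
  refine ⟨fun i hi j hj t h1 h2 h3 h4 => (h n t).unique ⟨hi, h1.le, h2⟩ ⟨hj, h3.le, h4⟩,
    fun a b hab => ?_⟩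
  obtain ⟨q, ⟨hq, h1, h2⟩, -⟩ := h n ((a + b) / 2)
  have hlt : (a + b) / 2 < min b (q.2 + (P q.1).lo + (P q.1).len) := lt_min (by linarith) h2
  have := min_le_left b (q.2 + (P q.1).lo + (P q.1).len)
  have := min_le_right b (q.2 + (P q.1).lo + (P q.1).len)
  exact ⟨q, hq, ((a + b) / 2 + min b (q.2 + (P q.1).lo + (P q.1).len)) / 2, by linarith, by linarith,
    by linarith, by linarith⟩

/-- The window pattern of a line through a class. -/
def Pattern (g1 g2 x y : ZMod 8) : Prop :=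
  (∃ i : Fin 8, ∀ j : Fin 8,
      (isStack (x - (j : ℕ) * g1) (y - (j : ℕ) * g2) ↔ j = i) ∧
        ¬isBlock (x - (j : ℕ) * g1) (y - (j : ℕ) * g2)) ∨
    ∃ i : Fin 8, (i : ℕ) < 4 ∧ ∀ j : Fin 8,
      ¬isStack (x - (j : ℕ) * g1) (y - (j : ℕ) * g2) ∧
        (isBlock (x - (j : ℕ) * g1) (y - (j : ℕ) * g2) ↔ (j = i ∨ (j : ℕ) = i + 4))

instance (g1 g2 x y : ZMod 8) : Decidable (Pattern g1 g2 x y) := by unfold Pattern; infer_instance

theorem pattern_y : ∀ x y, Pattern 0 1 x y := by decide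

theorem pattern_x : ∀ x y, Pattern 1 0 x y := by decide

theorem pattern_z : ∀ x y, Pattern 1 (-1) x y := by decide

theorem cast_line (n g : Hor) (j : ℕ) :
    ((n - (j : ℤ) • g).1 : ZMod 8) = (n.1 : ZMod 8) - j * (g.1 : ZMod 8) ∧
      ((n - (j : ℤ) • g).2 : ZMod 8) = (n.2 : ZMod 8) - j * (g.2 : ZMod 8) := by
  simp

/-- Line tiles are solved exactly. -/
theorem exact_line (κ : ℝ) (g : Hor)
    (hg : ∀ x y, Pattern (g.1 : ZMod 8) (g.2 : ZMod 8) x y) :
    Exact (lineT g ((g.1 : ℝ) * κ)) (sol κ) := by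
  intro n t
  set β : ℝ := (g.1 : ℝ) * κ with hβ
  have hS : ∀ j : Fin 8, StackCell (n - ((j : ℕ) : ℤ) • g) ↔
      isStack ((n.1 : ZMod 8) - (j : ℕ) * (g.1 : ZMod 8)) ((n.2 : ZMod 8) - (j : ℕ) * (g.2 : ZMod 8)) :=
    fun j => by rw [StackCell, (cast_line n g j).1, (cast_line n g j).2]
  have hB : ∀ j : Fin 8, BlockCell (n - ((j : ℕ) : ℤ) • g) ↔
      isBlock ((n.1 : ZMod 8) - (j : ℕ) * (g.1 : ZMod 8)) ((n.2 : ZMod 8) - (j : ℕ) * (g.2 : ZMod 8)) :=
    fun j => by rw [BlockCell, (cast_line n g j).1, (cast_line n g j).2]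
  rcases hg (n.1 : ZMod 8) (n.2 : ZMod 8) with ⟨i, hi⟩ | ⟨i, hi4, hi⟩
  · have hc : StackCell (n - ((i : ℕ) : ℤ) • g) := (hS i).2 ((hi i).1.2 rfl)
    refine ⟨(i, (⌊t - offs β i⌋ : ℤ)), ⟨(mem_sol_stack hc).2 ⟨_, rfl⟩, ?_, ?_⟩, ?_⟩
    · show ((⌊t - offs β i⌋ : ℤ) : ℝ) + offs β i ≤ t
      linarith [Int.floor_le (t - offs β i)]
    · show t < ((⌊t - offs β i⌋ : ℤ) : ℝ) + offs β i + 1
      linarith [Int.lt_floor_add_one (t - offs β i)]
    rintro ⟨j, b⟩ ⟨hm, h1, h2⟩
    have hji : j = i := by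
      rcases hm with ⟨hs, -⟩ | ⟨hb, -⟩
      · exact (hi j).1.1 ((hS j).1 hs)
      · exact absurd ((hB j).1 hb) (hi j).2
    subst hji
    obtain ⟨k, rfl⟩ := (mem_sol_stack hc).1 hm
    change (k : ℝ) + offs β j ≤ t at h1
    change t < (k : ℝ) + offs β j + 1 at h2
    rw [(Int.floor_eq_iff (z := k)).2 ⟨by linarith, by linarith⟩]
  · set i' : Fin 8 := ⟨(i : ℕ) + 4, by omega⟩ with hi'
    set w := n - ((i' : ℕ) : ℤ) • g with hw
    have hbw : BlockCell w := (hB i').2 ((hi i').2.2 (Or.inr rfl))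
    have hbz : BlockCell (n - ((i : ℕ) : ℤ) • g) := (hB i).2 ((hi i).2.2 (Or.inl rfl))
    set a : ℝ := ((w.1 / 4 : ℤ) : ℝ) * κ with ha
    have hz : ((n - ((i : ℕ) : ℤ) • g).1 / 4 : ℤ) = w.1 / 4 + g.1 := by
      rw [← div_four_add w]
      congr 1
      simp [hw, hi']
      ring
    have hm1 : ∀ b, (w, b) ∈ sol κ ↔ ∃ k : ℤ, b = a + 2 * k := fun b => mem_sol_block hbw
    have hm0 : ∀ b, (n - ((i : ℕ) : ℤ) • g, b) ∈ sol κ ↔ ∃ k : ℤ, b = a + β + 2 * k := fun b => by
      rw [mem_sol_block hbz, hz, ha, hβ]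
      push_cast
      exact exists_congr fun k => by constructor <;> intro e <;> linarith
    have o0 : offs β i = 0 := if_pos hi4
    have o1 : offs β i' = 1 + β := if_neg (by simp [hi'])
    have main : ∀ (j : Fin 8) (b : ℝ), (n - ((j : ℕ) : ℤ) • g, b) ∈ sol κ →
        ∃ k : ℤ, (j = i ∧ b = a + β + 2 * k) ∨ (j = i' ∧ b = a + 2 * k) := by
      intro j b hm
      rcases hm with ⟨hs, -⟩ | ⟨hb, hk⟩
      · exact absurd ((hS j).1 hs) (hi j).1
      rcases (hi j).2.1 ((hB j).1 hb) with e | e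
      · subst e
        obtain ⟨k, hk⟩ := (hm0 b).1 (Or.inr ⟨hb, hk⟩)
        exact ⟨k, Or.inl ⟨rfl, hk⟩⟩
      · obtain rfl : j = i' := Fin.ext e
        obtain ⟨k, hk⟩ := (hm1 b).1 (Or.inr ⟨hb, hk⟩)
        exact ⟨k, Or.inr ⟨rfl, hk⟩⟩
    obtain ⟨u, hu⟩ : ∃ u : ℝ, u = t - a - β := ⟨_, rfl⟩
    set k := ⌊u / 2⌋ with hk
    have l1 := Int.floor_le (u / 2)
    have l2 := Int.lt_floor_add_one (u / 2)
    rw [← hk] at l1 l2
    have sep : ∀ (m l : ℤ) (x : ℝ), (2 * m : ℝ) + x ≤ u → u < (2 * m : ℝ) + x + 1 →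
        (2 * l : ℝ) ≤ u → u < (2 * l : ℝ) + 2 → 0 ≤ x → x ≤ 1 → m = l := by
      intro m l x a1 a2 a3 a4 a5 a6
      have b1 : ((m - l : ℤ) : ℝ) < 1 := by push_cast; linarith
      have b2 : (-1 : ℝ) < ((m - l : ℤ) : ℝ) := by push_cast; linarith
      have c1 : m - l < 1 := by exact_mod_cast b1
      have c2 : -1 < m - l := by exact_mod_cast b2
      omega
    by_cases hsmall : u < 2 * k + 1
    · refine ⟨(i, a + β + 2 * k), ⟨(hm0 _).2 ⟨k, rfl⟩, ?_, ?_⟩, ?_⟩
      · show a + β + 2 * (k : ℝ) + offs β i ≤ t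
        linarith
      · show t < a + β + 2 * (k : ℝ) + offs β i + 1
        linarith
      rintro ⟨j, b⟩ ⟨hm, h1, h2⟩
      change b + offs β j ≤ t at h1
      change t < b + offs β j + 1 at h2
      obtain ⟨m, ⟨rfl, rfl⟩ | ⟨rfl, rfl⟩⟩ := main j b hm
      · rw [sep m k 0 (by linarith) (by linarith) (by linarith) (by linarith) le_rfl zero_le_one]
      · exfalso
        obtain rfl := sep m k 1 (by linarith) (by linarith) (by linarith) (by linarith) zero_le_one
          le_rfl
        linarith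
    · refine ⟨(i', a + 2 * k), ⟨(hm1 _).2 ⟨k, rfl⟩, ?_, ?_⟩, ?_⟩
      · show a + 2 * (k : ℝ) + offs β i' ≤ t
        linarith
      · show t < a + 2 * (k : ℝ) + offs β i' + 1
        linarith
      rintro ⟨j, b⟩ ⟨hm, h1, h2⟩
      change b + offs β j ≤ t at h1
      change t < b + offs β j + 1 at h2
      obtain ⟨m, ⟨rfl, rfl⟩ | ⟨rfl, rfl⟩⟩ := main j b hm
      · exfalso
        obtain rfl := sep m k 0 (by linarith) (by linarith) (by linarith) (by linarith) le_rfl
          zero_le_one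
        linarith
      · rw [sep m k 1 (by linarith) (by linarith) (by linarith) (by linarith) zero_le_one le_rfl]

theorem exact_y (κ : ℝ) : Exact (lineT (0, 1) 0) (sol κ) := by
  simpa using exact_line κ (0, 1) (by simpa using pattern_y)

theorem exact_x (κ : ℝ) : Exact (lineT (1, 0) κ) (sol κ) := by
  simpa using exact_line κ (1, 0) (by simpa using pattern_x)

theorem exact_z (κ : ℝ) : Exact (lineT (1, -1) κ) (sol κ) := by
  simpa using exact_line κ (1, -1) (by simpa using pattern_z)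

/-- The raised tile. -/
theorem exact_raised (κ : ℝ) : Exact raisedT (sol κ) := by
  intro n t
  have hY := exact_y κ n t
  let down : Fin 8 × ℝ → Fin 8 × ℝ := fun q => if q.1 = 0 then (q.1, q.2 + 2) else q
  let up : Fin 8 × ℝ → Fin 8 × ℝ := fun q => if q.1 = 0 then (q.1, q.2 - 2) else q
  have key : ∀ q : Fin 8 × ℝ,
      (q ∈ colIdx raisedT (sol κ) n ∧ q.2 + (raisedT q.1).lo ≤ t ∧
          t < q.2 + (raisedT q.1).lo + (raisedT q.1).len) ↔
        (down q ∈ colIdx (lineT (0, 1) 0) (sol κ) n ∧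
          (down q).2 + (lineT (0, 1) 0 (down q).1).lo ≤ t ∧
          t < (down q).2 + (lineT (0, 1) 0 (down q).1).lo + (lineT (0, 1) 0 (down q).1).len) := by
    rintro ⟨j, b⟩
    by_cases hj : j = 0
    · subst hj
      have e : (n, b) ∈ sol κ ↔ (n, b + 2) ∈ sol κ := by
        constructor
        · intro h; simpa using sol_shift_two h 1
        · intro h; simpa using sol_shift_two h (-1)
      simp [down, colIdx, raisedT, lineT, offs, e, Prod.mk_zero_zero]
    · simp [down, hj, colIdx, raisedT]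
  have inv : ∀ q, down (up q) = q ∧ up (down q) = q := by
    rintro ⟨j, b⟩
    by_cases hj : j = 0 <;> simp [down, up, hj]
  obtain ⟨q, hq, huniq⟩ := hY
  exact ⟨up q, (key _).2 (by rw [(inv q).1]; exact hq),
    fun p hp => by rw [← huniq _ ((key p).1 hp), (inv p).2]⟩

/-- The arrangements of the cells seen by the split tile. -/
def SplitPattern (x y : ZMod 8) : Prop :=
  (∃ i : Fin 8, ∀ j : Fin 8,
      (isStack (x - (j : ℕ)) y ↔ j = i) ∧ ¬isBlock (x - (j : ℕ)) y) ∨
    ∃ i : Fin 8, (i : ℕ) < 4 ∧ ∀ j : Fin 8,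
      ¬isStack (x - (j : ℕ)) y ∧ (isBlock (x - (j : ℕ)) y ↔ (j = i ∨ (j : ℕ) = i + 4))

instance (x y : ZMod 8) : Decidable (SplitPattern x y) := by unfold SplitPattern; infer_instance

theorem split_pattern : ∀ x y, SplitPattern x y := by decide

/-- The class of a piece of the split tile. -/
def splitClass : Fin 10 → Fin 8 := ![0, 0, 4, 4, 1, 2, 3, 5, 6, 7]

theorem splitT_cell (κ : ℝ) (j : Fin 10) :
    ((splitT κ j).cell.1 : ZMod 8) = ((splitClass j : ℕ) : ZMod 8) ∧
      (splitT κ j).cell.2 = 0 := by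
  fin_cases j <;> simp [splitT, splitClass, lineT] <;> decide

/-- An exact column from a partition of one period. -/
theorem exact_column {ι : Type*} (P : ι → Piece) (A : Set (Hor × ℝ)) (n : Hor) (t : ℝ) (J : ι → Prop)
    (base : ι → ℝ) (per s0 : ℝ) (hper : 0 < per)
    (mem : ∀ j b, (j, b) ∈ colIdx P A n ↔ J j ∧ ∃ k : ℤ, b = base j + per * k)
    (inside : ∀ j, J j → s0 ≤ base j + (P j).lo ∧ base j + (P j).lo + (P j).len ≤ s0 + per)
    (part : ∀ u, s0 ≤ u → u < s0 + per →
      ∃! j, J j ∧ base j + (P j).lo ≤ u ∧ u < base j + (P j).lo + (P j).len) :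
    ∃! q : ι × ℝ, q ∈ colIdx P A n ∧ q.2 + (P q.1).lo ≤ t ∧ t < q.2 + (P q.1).lo + (P q.1).len := by
  set k := ⌊(t - s0) / per⌋ with hk
  have l1 : (k : ℝ) * per ≤ t - s0 := (le_div_iff₀ hper).1 (Int.floor_le _)
  have l2 : t - s0 < ((k : ℝ) + 1) * per := (div_lt_iff₀ hper).1 (Int.lt_floor_add_one _)
  obtain ⟨j, ⟨hj, j1, j2⟩, hu⟩ := part (t - per * k) (by linarith) (by linarith)
  refine ⟨(j, base j + per * k), ⟨(mem j _).2 ⟨hj, k, rfl⟩, by dsimp only; linarith,
    by dsimp only; linarith⟩, ?_⟩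
  rintro ⟨j', b⟩ ⟨hm, a1, a2⟩
  obtain ⟨hj', m, rfl⟩ := (mem j' b).1 hm
  obtain ⟨i1, i2⟩ := inside j' hj'
  dsimp only at a1 a2
  have hm : m = k := by
    rw [hk, eq_comm, Int.floor_eq_iff]
    constructor
    · rw [le_div_iff₀ hper]; linarith
    · rw [div_lt_iff₀ hper]; linarith
  subst hm
  obtain rfl := hu j' ⟨hj', by linarith, by linarith⟩
  rfl

/-- The split tile is solved exactly. -/
theorem exact_split (κ : ℝ) (hκ0 : 0 < κ) (hκ1 : κ < 1 / 4) : Exact (splitT κ) (sol κ) := by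
  intro n t
  have hcell : ∀ (j : Fin 10),
      (((n - (splitT κ j).cell).1 : ZMod 8) = (n.1 : ZMod 8) - ((splitClass j : ℕ) : ZMod 8)) ∧
      ((n - (splitT κ j).cell).2 : ZMod 8) = (n.2 : ZMod 8) := fun j => by
    obtain ⟨h1, h2⟩ := splitT_cell κ j
    simp [h1, h2]
  rcases split_pattern (n.1 : ZMod 8) (n.2 : ZMod 8) with ⟨i, hi⟩ | ⟨i, hi4, hi⟩
  · -- one stack
    refine exact_column (splitT κ) (sol κ) n t (fun j => splitClass j = i) (fun _ => 0) 1
      (if i = 4 then 1 - κ else if i = 0 then 0 else offs κ i) one_pos (fun j b => ?_)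
      (fun j hj => ?_) fun u u1 u2 => ?_
    · show (n - (splitT κ j).cell, b) ∈ sol κ ↔ _
      have hS : StackCell (n - (splitT κ j).cell) ↔ splitClass j = i := by
        rw [StackCell, (hcell j).1, (hcell j).2]; exact (hi _).1
      have hB : ¬BlockCell (n - (splitT κ j).cell) := by
        rw [BlockCell, (hcell j).1, (hcell j).2]; exact (hi _).2
      simp only [zero_add, one_mul]
      constructor
      · rintro (⟨hs, hk⟩ | ⟨hb, -⟩)
        · exact ⟨hS.1 hs, hk⟩
        · exact absurd hb hB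
      · rintro ⟨he, hk⟩
        exact Or.inl ⟨hS.2 he, hk⟩
    · subst hj
      fin_cases j <;> simp [splitT, splitClass, lineT, offs] <;>
        first | linarith | (constructor <;> linarith)
    · fin_cases i <;> simp [offs] at u1 u2
      · by_cases hlow : u < 1 - 2 * κ
        · refine ⟨0, ⟨rfl, ?_, ?_⟩, fun j ⟨hj, a, b⟩ => ?_⟩
          · simp [splitT]; linarith
          · simp [splitT]; linarith
          · fin_cases j <;> simp [splitClass] at hj <;> simp [splitT] at a b ⊢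
            linarith
        · refine ⟨1, ⟨rfl, ?_, ?_⟩, fun j ⟨hj, a, b⟩ => ?_⟩
          · simp [splitT]; linarith
          · simp [splitT]; linarith
          · fin_cases j <;> simp [splitClass] at hj <;> simp [splitT] at a b ⊢
            linarith
      -- the goal of class four first
      rotate_left 3
      · by_cases hlow : u < 1 + κ
        · refine ⟨2, ⟨rfl, ?_, ?_⟩, fun j ⟨hj, a, b⟩ => ?_⟩
          · simp [splitT]; linarith
          · simp [splitT]; linarith
          · fin_cases j <;> simp [splitClass] at hj <;> simp [splitT] at a b ⊢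
            linarith
        · refine ⟨3, ⟨rfl, ?_, ?_⟩, fun j ⟨hj, a, b⟩ => ?_⟩
          · simp [splitT]; linarith
          · simp [splitT]; linarith
          · fin_cases j <;> simp [splitClass] at hj <;> simp [splitT] at a b ⊢
            linarith
      all_goals
        first
          | (refine ⟨4, ⟨rfl, ?_, ?_⟩, fun j ⟨hj, a, b⟩ => ?_⟩
             · simp [splitT, lineT, offs]; linarith
             · simp [splitT, lineT, offs]; linarith
             · fin_cases j <;> simp [splitClass] at hj ⊢)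
          | (refine ⟨5, ⟨rfl, ?_, ?_⟩, fun j ⟨hj, a, b⟩ => ?_⟩
             · simp [splitT, lineT, offs]; linarith
             · simp [splitT, lineT, offs]; linarith
             · fin_cases j <;> simp [splitClass] at hj ⊢)
          | (refine ⟨6, ⟨rfl, ?_, ?_⟩, fun j ⟨hj, a, b⟩ => ?_⟩
             · simp [splitT, lineT, offs]; linarith
             · simp [splitT, lineT, offs]; linarith
             · fin_cases j <;> simp [splitClass] at hj ⊢)
          | (refine ⟨7, ⟨rfl, ?_, ?_⟩, fun j ⟨hj, a, b⟩ => ?_⟩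
             · simp [splitT, lineT, offs]; linarith
             · simp [splitT, lineT, offs]; linarith
             · fin_cases j <;> simp [splitClass] at hj ⊢)
          | (refine ⟨8, ⟨rfl, ?_, ?_⟩, fun j ⟨hj, a, b⟩ => ?_⟩
             · simp [splitT, lineT, offs]; linarith
             · simp [splitT, lineT, offs]; linarith
             · fin_cases j <;> simp [splitClass] at hj ⊢)
          | (refine ⟨9, ⟨rfl, ?_, ?_⟩, fun j ⟨hj, a, b⟩ => ?_⟩
             · simp [splitT, lineT, offs]; linarith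
             · simp [splitT, lineT, offs]; linarith
             · fin_cases j <;> simp [splitClass] at hj ⊢)
  · -- a pair of single points
    obtain ⟨c, hc⟩ : ∃ c : ℤ, c = (n.1 - (i : ℕ)) / 4 := ⟨_, rfl⟩
    have hmem : ∀ j b, (j, b) ∈ colIdx (splitT κ) (sol κ) n ↔
        (splitClass j = i ∨ (splitClass j : ℕ) = i + 4) ∧
          ∃ k : ℤ, b = (((n.1 - (splitT κ j).cell.1) / 4 : ℤ) : ℝ) * κ + 2 * k := by
      intro j b
      show (n - (splitT κ j).cell, b) ∈ sol κ ↔ _
      have hB : BlockCell (n - (splitT κ j).cell) ↔ (splitClass j = i ∨ (splitClass j : ℕ) = i + 4) := by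
        rw [BlockCell, (hcell j).1, (hcell j).2]; exact (hi _).2
      have hS : ¬StackCell (n - (splitT κ j).cell) := by
        rw [StackCell, (hcell j).1, (hcell j).2]; exact (hi _).1
      constructor
      · rintro (⟨hs, -⟩ | ⟨hb, hk⟩)
        · exact absurd hs hS
        · exact ⟨hB.1 hb, hk⟩
      · rintro ⟨he, hk⟩
        exact Or.inr ⟨hB.2 he, hk⟩
    by_cases h0 : i = 0
    · subst h0
      have e0 : (n.1 / 4 : ℤ) = c := by simp [hc]
      have e8 : ((n.1 + 8) / 4 : ℤ) = c + 2 := by simp [hc]; omega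
      have em4 : ((n.1 - 4) / 4 : ℤ) = c - 1 := by simp [hc]; omega
      have ep4 : ((n.1 + 4) / 4 : ℤ) = c + 1 := by simp [hc]; omega
      refine exact_column (splitT κ) (sol κ) n t
        (fun j => splitClass j = 0 ∨ (splitClass j : ℕ) = 4)
        (fun j => (((n.1 - (splitT κ j).cell.1) / 4 : ℤ) : ℝ) * κ) 2 ((c : ℝ) * κ) two_pos
        (fun j b => by simpa using hmem j b) (fun j hj => ?_) fun u u1 u2 => ?_
      · fin_cases j <;> simp [splitClass, Fin.ext_iff] at hj <;>
          simp [splitT, e0, e8, em4, ep4, sub_neg_eq_add] at * <;> push_cast <;>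
          first | linarith | (constructor <;> linarith)
      · have v : ∀ j : Fin 10, (splitClass j = 0 ∨ (splitClass j : ℕ) = 4) →
            j = 0 ∨ j = 1 ∨ j = 2 ∨ j = 3 := by decide
        rcases lt_or_ge u (c * κ + (1 - 2 * κ)) with h | h
        · refine ⟨0, ⟨by decide, ?_, ?_⟩, fun j ⟨hj, a, b⟩ => ?_⟩
          · simp [splitT, e0] at *; linarith
          · simp [splitT, e0] at *; linarith
          · rcases v j hj with rfl | rfl | rfl | rfl <;>
              simp [splitT, e0, e8, em4, ep4, sub_neg_eq_add] at a b ⊢ <;> push_cast at a b <;>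
              linarith
        rcases lt_or_ge u (c * κ + 1) with h' | h'
        · refine ⟨2, ⟨by decide, ?_, ?_⟩, fun j ⟨hj, a, b⟩ => ?_⟩
          · simp [splitT, em4]; push_cast; linarith
          · simp [splitT, em4]; push_cast; linarith
          · rcases v j hj with rfl | rfl | rfl | rfl <;>
              simp [splitT, e0, e8, em4, ep4, sub_neg_eq_add] at a b ⊢ <;> push_cast at a b <;>
              linarith
        rcases lt_or_ge u (c * κ + 1 + 2 * κ) with h'' | h''
        · refine ⟨1, ⟨by decide, ?_, ?_⟩, fun j ⟨hj, a, b⟩ => ?_⟩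
          · simp [splitT, e8, sub_neg_eq_add]; push_cast; linarith
          · simp [splitT, e8, sub_neg_eq_add]; push_cast; linarith
          · rcases v j hj with rfl | rfl | rfl | rfl <;>
              simp [splitT, e0, e8, em4, ep4, sub_neg_eq_add] at a b ⊢ <;> push_cast at a b <;>
              linarith
        · refine ⟨3, ⟨by decide, ?_, ?_⟩, fun j ⟨hj, a, b⟩ => ?_⟩
          · simp [splitT, ep4, sub_neg_eq_add]; push_cast; linarith
          · simp [splitT, ep4, sub_neg_eq_add]; push_cast; linarith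
          · rcases v j hj with rfl | rfl | rfl | rfl <;>
              simp [splitT, e0, e8, em4, ep4, sub_neg_eq_add] at a b ⊢ <;> push_cast at a b <;>
              linarith
    · -- two unit pieces
      obtain ⟨⟨p, hp, hp'⟩, ⟨q, hq, hq'⟩⟩ :=
        (show ∀ i : Fin 8, i ≠ 0 → (i : ℕ) < 4 →
          (∃ p : Fin 10, splitClass p = i ∧ ∀ j, splitClass j = i → j = p) ∧
          ∃ q : Fin 10, (splitClass q : ℕ) = i + 4 ∧ ∀ j, (splitClass j : ℕ) = i + 4 → j = q by
            decide) i h0 hi4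
      have dp : (splitT κ p).lo = 0 ∧ (splitT κ p).len = 1 ∧ (splitT κ p).cell.1 = (i : ℕ) := by
        subst hp
        fin_cases p <;> simp [splitClass] at h0 hi4 <;> simp [splitT, splitClass, lineT, offs]
      have dq : (splitT κ q).lo = 1 + κ ∧ (splitT κ q).len = 1 ∧
          (splitT κ q).cell.1 = (i : ℕ) + 4 := by
        fin_cases q <;> simp [splitClass] at hq <;>
          first
          | omega
          | (simp [splitT, lineT, offs]; omega)
      have eq' : ((n.1 - (splitT κ q).cell.1) / 4 : ℤ) = c - 1 := by rw [dq.2.2, hc]; omega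
      have ep' : ((n.1 - (splitT κ p).cell.1) / 4 : ℤ) = c := by rw [dp.2.2, hc]
      refine exact_column (splitT κ) (sol κ) n t
        (fun j => splitClass j = i ∨ (splitClass j : ℕ) = i + 4)
        (fun j => (((n.1 - (splitT κ j).cell.1) / 4 : ℤ) : ℝ) * κ) 2 ((c : ℝ) * κ) two_pos hmem
        (fun j hj => ?_) fun u u1 u2 => ?_
      · rcases hj with hj | hj
        · rw [hp' j hj, ep', dp.1, dp.2.1]; constructor <;> linarith
        · rw [hq' j hj, eq', dq.1, dq.2.1]; push_cast; constructor <;> linarith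
      · by_cases h : u < c * κ + 1
        · refine ⟨p, ⟨Or.inl hp, ?_, ?_⟩, fun j ⟨hj, a, b⟩ => ?_⟩
          · rw [ep', dp.1]; linarith
          · rw [ep', dp.1, dp.2.1]; linarith
          · rcases hj with hj | hj
            · exact hp' j hj
            · rw [hq' j hj, eq', dq.1] at a; push_cast at a; linarith
        · refine ⟨q, ⟨Or.inr hq, ?_, ?_⟩, fun j ⟨hj, a, b⟩ => ?_⟩
          · rw [eq', dq.1]; push_cast; linarith
          · rw [eq', dq.1, dq.2.1]; push_cast; linarith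
          · rcases hj with hj | hj
            · rw [hp' j hj, ep', dp.1, dp.2.1] at b; linarith
            · exact hq' j hj

theorem solves_sol (κ : ℝ) (hκ0 : 0 < κ) (hκ1 : κ < 1 / 4) : Solves κ (sol κ) :=
  ⟨(exact_y κ).pieceTiles, (exact_raised κ).pieceTiles, (exact_x κ).pieceTiles,
    (exact_z κ).pieceTiles, (exact_split κ hκ0 hκ1).pieceTiles⟩

end Vale.Agent.P043.Three
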