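import Vale.Agent.P043.Three.Tile
import Vale.Agent.P043.Three.Solution

/-!
The tile tiles space: every point is covered exactly once by the translates along the common
solution.
-/

open MeasureTheory

namespace Vale.Agent.P043.Three

open Vale.Agent.P043.Aperiodic Vale.Agent.P043.Aperiodic.Euclid

theorem toPt_add (p q : Hor × ℝ) : toPt (p + q) = toPt p + toPt q := by
  funext l
  fin_cases l <;> simp

theorem toPt_inj {p q : Hor × ℝ} (h : toPt p = toPt q) : p = q := by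
  have h0 := congrFun h 0
  have h1 := congrFun h 1
  have h2 := congrFun h 2
  simp only [toPt_zero, toPt_one, toPt_two] at h0 h1 h2
  exact Prod.ext (Prod.ext (by exact_mod_cast h0) (by exact_mod_cast h1)) h2

/-- The height of the blocks over the plane of first coordinate `x`. -/
noncomputable def cT (κ : ℝ) (x : ℤ) : ℝ := if 4 ∣ x then ((x / 4 : ℤ) : ℝ) * κ else 0

theorem stack_fst {z : Hor} (h : StackCell z) : ¬(4 : ℤ) ∣ z.1 := by
  rintro ⟨m, hm⟩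
  have e : ((z.1 : ℤ) : ZMod 8) = 4 * (m : ZMod 8) := by rw [hm]; simp
  rw [StackCell, e] at h
  exact (show ∀ (m y : ZMod 8), ¬isStack (4 * m) y by decide) _ _ h

theorem block_fst {z : Hor} (h : BlockCell z) : (4 : ℤ) ∣ z.1 := by
  rcases h.1 with e | e
  · have := (ZMod.intCast_zmod_eq_zero_iff_dvd z.1 8).1 e
    omega
  · have : ((z.1 - 4 : ℤ) : ZMod 8) = 0 := by push_cast; rw [e]; decide
    have := (ZMod.intCast_zmod_eq_zero_iff_dvd _ 8).1 this
    omega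

theorem low_mem {κ : ℝ} {n : Hor} {i : Fin 8} {b : ℝ}
    (h : (i, b) ∈ colIdx (lineT (0, 1) 0) (sol κ) n) :
    ∃ k : ℤ, b + offs 0 i = cT κ n.1 + k := by
  have hn : (n - ((i : ℕ) : ℤ) • ((0, 1) : Hor)).1 = n.1 := by simp
  obtain ⟨d, hd⟩ : ∃ d : ℤ, offs 0 i = d := by
    unfold offs
    split
    · exact ⟨0, by simp⟩
    · exact ⟨1, by simp⟩
  rcases (mem_line.1 h) with ⟨hs, k, hk⟩ | ⟨hb, k, hk⟩
  · refine ⟨k + d, ?_⟩
    have hc := stack_fst hs
    rw [hn] at hc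
    dsimp only at hk
    rw [cT, if_neg hc, hk, hd]; push_cast; ring
  · refine ⟨2 * k + d, ?_⟩
    have hc := block_fst hb
    rw [hn] at hc
    dsimp only at hk
    rw [hn] at hk
    rw [cT, if_pos hc, hk, hd]; push_cast; ring

/-- The corners of the blocks. -/
def IsCorner (κ : ℝ) (u : Pt) : Prop := ∃ (n : Hor) (k : ℤ), u = toPt (n, cT κ n.1 + k)

theorem corner_unique {κ : ℝ} {x u : Pt} {n : Hor} {k : ℤ} (hu : u = toPt (n, cT κ n.1 + k))
    (h : x - u ∈ block) :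
    (x - u ∈ cube ∧ (n.1 = ⌊x 0⌋ ∧ n.2 = ⌊x 1⌋ ∧ k = ⌊x 2 - cT κ n.1⌋) ∧
        ∀ a, x - u ∉ dent3 a) ∨
      ∃ a : Fin 3, x - u - axisVec a ∈ dent3 a ∧
        n.1 + (if (0 : Fin 3) = a then 1 else 0) = ⌊x 0⌋ ∧
        n.2 + (if (1 : Fin 3) = a then 1 else 0) = ⌊x 1⌋ ∧
        k + (if (2 : Fin 3) = a then 1 else 0) = ⌊x 2 - cT κ n.1⌋ := by
  subst hu
  rcases h with ⟨hc, hd⟩ | hb
  · have c0 := hc 0
    have c1 := hc 1
    have c2 := hc 2
    simp at c0 c1 c2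
    refine Or.inl ⟨hc, ⟨?_, ?_, ?_⟩, fun a ha => hd (Set.mem_iUnion.2 ⟨a, ha⟩)⟩ <;>
      · rw [eq_comm, Int.floor_eq_iff]; constructor <;> linarith
  · obtain ⟨a, ha⟩ := Set.mem_iUnion.1 hb
    refine Or.inr ⟨a, ha, ?_⟩
    have p0 := ha 0
    have p1 := ha 1
    have p2 := ha 2
    fin_cases a <;> simp [dlo, dhi, axisVec] at p0 p1 p2 ⊢ <;> refine ⟨?_, ?_, ?_⟩ <;>
      · rw [eq_comm, Int.floor_eq_iff]; push_cast; constructor <;> linarith

/-- The blocks at the corners partition space. -/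
theorem block_partition (κ : ℝ) (x : Pt) : ∃! u, IsCorner κ u ∧ x - u ∈ block := by
  set m := ⌊x 0⌋ with hm
  set l := ⌊x 1⌋ with hl
  set y : Pt := x - toPt ((m, l), cT κ m + (⌊x 2 - cT κ m⌋ : ℤ)) with hy
  have yc : y ∈ cube := by
    intro a
    fin_cases a <;> simp only [hy, hm, hl, Pi.sub_apply, toPt_zero, toPt_one, toPt_two,
      Fin.zero_eta, Fin.mk_one, Fin.reduceFinMk] <;> constructor <;>
      linarith [Int.floor_le (x 0), Int.lt_floor_add_one (x 0), Int.floor_le (x 1),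
        Int.lt_floor_add_one (x 1), Int.floor_le (x 2 - cT κ ⌊x 0⌋),
        Int.lt_floor_add_one (x 2 - cT κ ⌊x 0⌋)]
  -- the owner in each case
  let own : Fin 3 → Pt := ![toPt ((m - 1, l), cT κ (m - 1) + (⌊x 2 - cT κ (m - 1)⌋ : ℤ)),
    toPt ((m, l - 1), cT κ m + (⌊x 2 - cT κ m⌋ : ℤ)),
    toPt ((m, l), cT κ m + ((⌊x 2 - cT κ m⌋ - 1 : ℤ) : ℝ))]
  have own_dent : ∀ a, x - own a - axisVec a ∈ dent3 a ↔ y ∈ dent3 a := by
    intro a
    have w1 := Int.floor_le (x 2 - cT κ (m - 1))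
    have w2 := Int.lt_floor_add_one (x 2 - cT κ (m - 1))
    have c := yc 2
    simp only [hy, Pi.sub_apply, toPt_two] at c
    constructor <;> intro h <;> intro r <;> have h0 := h 0 <;> have h1 := h 1 <;>
      have h2 := h 2 <;> fin_cases a <;> fin_cases r <;>
      simp [dlo, dhi, axisVec, own, hy] at h0 h1 h2 ⊢ <;>
      first | linarith | (constructor <;> linarith)
  have own_corner : ∀ a, IsCorner κ (own a) := fun a => by
    fin_cases a
    · exact ⟨(m - 1, l), _, rfl⟩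
    · exact ⟨(m, l - 1), _, rfl⟩
    · exact ⟨(m, l), _, rfl⟩
  -- every solution is the corner of the cell or an owner
  have cases' : ∀ u, IsCorner κ u → x - u ∈ block →
      (x - u = y ∧ ∀ a, y ∉ dent3 a) ∨ ∃ a, u = own a ∧ y ∈ dent3 a := by
    rintro u ⟨n, k, hu⟩ hb
    rcases corner_unique hu hb with ⟨-, ⟨e0, e1, e2⟩, hd⟩ | ⟨a, ha, e0, e1, e2⟩
    · have : x - u = y := by
        rw [hy, hu, e2, e0, show n = (m, l) from Prod.ext e0 e1]
      exact Or.inl ⟨this, this ▸ hd⟩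
    · have : u = own a := by
        rw [hu]
        fin_cases a <;> simp at e0 e1 e2 <;>
          (obtain ⟨n1, n2⟩ := n; dsimp only at e0 e1 e2 ⊢)
        · obtain rfl : n1 = m - 1 := by omega
          obtain rfl : n2 = l := by omega
          simp [own, e2]
        · obtain rfl : n1 = m := by omega
          obtain rfl : n2 = l - 1 := by omega
          simp [own, e2]
        · obtain rfl : n1 = m := by omega
          obtain rfl : n2 = l := by omega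
          obtain rfl : k = ⌊x 2 - cT κ m⌋ - 1 := by omega
          simp [own]
      exact Or.inr ⟨a, this, (own_dent a).1 (this ▸ ha)⟩
  by_cases hd : ∃ a, y ∈ dent3 a
  · obtain ⟨a, ha⟩ := hd
    refine ⟨own a, ⟨own_corner a, Or.inr (Set.mem_iUnion.2 ⟨a, (own_dent a).2 ha⟩)⟩, ?_⟩
    rintro u ⟨hu, hb⟩
    rcases cases' u hu hb with ⟨-, hn⟩ | ⟨b, rfl, hy'⟩
    · exact absurd ha (hn a)
    · suffices b = a by rw [this]
      have p0 := ha 0
      have p1 := ha 1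
      have q0 := hy' 0
      have q1 := hy' 1
      have p2 := ha 2
      have q2 := hy' 2
      fin_cases a <;> fin_cases b <;> simp [dlo, dhi] at p0 p1 p2 q0 q1 q2 ⊢ <;> linarith
  · refine ⟨toPt ((m, l), cT κ m + (⌊x 2 - cT κ m⌋ : ℤ)), ⟨⟨(m, l), _, rfl⟩,
      Or.inl ⟨yc, fun h => hd (Set.mem_iUnion.1 h)⟩⟩, ?_⟩
    rintro u ⟨hu, hb⟩
    rcases cases' u hu hb with ⟨h, -⟩ | ⟨b, -, hb⟩
    · rw [hy] at h; exact sub_right_injective h
    · exact absurd ⟨b, hb⟩ hd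

theorem pY_eq (i : Fin 8) : pY i = toPt ((0, ((i : ℕ) : ℤ)), offs 0 i) := by
  simp [pY, lineT]

/-- Each corner is the place of a block of exactly one translate. -/
theorem corner_exists {κ : ℝ} {u : Pt} (hc : IsCorner κ u) :
    ∃! q : (Hor × ℝ) × Fin 8, q.1 ∈ sol κ ∧ u = toPt q.1 + pY q.2 := by
  obtain ⟨n, k, rfl⟩ := hc
  obtain ⟨⟨i, b⟩, ⟨hm, h1, h2⟩, hu⟩ := exact_y κ n (cT κ n.1 + k)
  change b + offs 0 i ≤ _ at h1
  change _ < b + offs 0 i + 1 at h2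
  obtain ⟨k', hk'⟩ := low_mem hm
  obtain rfl : k' = k := int_eq_of_abs_lt (abs_lt.2 ⟨by linarith, by linarith⟩)
  refine ⟨((n - ((i : ℕ) : ℤ) • ((0, 1) : Hor), b), i), ⟨mem_line.1 hm, ?_⟩, ?_⟩
  · rw [pY_eq, ← toPt_add]
    congr 1
    exact Prod.ext (by ext <;> simp) hk'.symm
  · rintro ⟨⟨w, c⟩, j⟩ ⟨hs, e⟩
    rw [pY_eq, ← toPt_add] at e
    obtain ⟨e1, e2⟩ := Prod.ext_iff.1 (toPt_inj e)
    have hw : w = n - ((j : ℕ) : ℤ) • ((0, 1) : Hor) := by
      dsimp only [Prod.fst_add] at e1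
      rw [e1]; ext <;> simp
    have := hu (j, c) ⟨mem_line.2 (hw ▸ hs),
      by show c + offs 0 j ≤ _; simp at e2; linarith,
      by show _ < c + offs 0 j + 1; simp at e2; linarith⟩
    obtain ⟨rfl, rfl⟩ := Prod.ext_iff.1 this
    rw [hw]

theorem corner_of_sol {κ : ℝ} {w : Hor} {b : ℝ} (hs : (w, b) ∈ sol κ) (i : Fin 8) :
    IsCorner κ (toPt (w, b) + pY i) := by
  have e : w = w + (0, ((i : ℕ) : ℤ)) - ((i : ℕ) : ℤ) • ((0, 1) : Hor) := by ext <;> simp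
  obtain ⟨k, hk⟩ := low_mem (n := w + (0, ((i : ℕ) : ℤ))) (i := i) (b := b)
    (mem_line.2 (e ▸ hs))
  refine ⟨w + (0, ((i : ℕ) : ℤ)), k, ?_⟩
  rw [pY_eq, ← toPt_add]
  congr 1
  exact Prod.ext rfl hk

theorem hit_unique {ι : Type*} {P : ι → Piece} {A : Set (Hor × ℝ)} (h : Exact P A) (n : Hor)
    (t : ℝ) : ∃! p, p ∈ A ∧ Hit P (n - p.1) (t - p.2) := by
  obtain ⟨⟨i, b⟩, ⟨hm, h1, h2⟩, hu⟩ := h n t
  dsimp only at h1 h2
  refine ⟨(n - (P i).cell, b), ⟨hm, i, (sub_sub_cancel _ _).symm, by linarith, by linarith⟩, ?_⟩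
  rintro ⟨w, c⟩ ⟨hp, j, hc, g1, g2⟩
  dsimp only at hc g1 g2
  have hw : w = n - (P j).cell := by rw [hc, sub_sub_cancel]
  have := hu (j, c) ⟨(show (n - (P j).cell, c) ∈ A from hw ▸ hp), by dsimp only; linarith,
    by dsimp only; linarith⟩
  obtain ⟨rfl, rfl⟩ := Prod.mk.injEq .. ▸ this
  rw [hw]

theorem holeHit_unique {κ : ℝ} (hκ0 : 0 < κ) (hκ1 : κ < 1 / 4) (k : Fin 4) (n : Hor) (t : ℝ) :
    ∃! p, p ∈ sol κ ∧ HoleHit κ k (n - p.1) (t - p.2) := by
  fin_cases k <;> simp only [HoleHit] <;> norm_num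
  · exact hit_unique (exact_raised κ) n t
  · exact hit_unique (exact_x κ) n t
  · exact hit_unique (exact_z κ) n t
  · exact hit_unique (exact_split κ hκ0 hκ1) n t

/-- Every point lies in exactly one translate of the tile. -/
theorem omega3_partition {κ : ℝ} (hκ0 : 0 < κ) (hκ1 : κ < 1 / 4) (x : Pt) :
    ∃! p, p ∈ sol κ ∧ x - toPt p ∈ omega3 κ := by
  by_cases hx : ∃ (k : Fin 4) (n : Hor), Foot k (x 0 - n.1) (x 1 - n.2)
  · obtain ⟨k, n, hf⟩ := hx
    have e : ∀ p : Hor × ℝ, x - toPt p ∈ omega3 κ ↔ HoleHit κ k (n - p.1) (x 2 - p.2) := fun p => by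
      simpa using mem_omega3_hole (κ := κ) (foot_sub_int (u := toPt p) (m := p.1) rfl rfl hf)
    simpa only [e] using holeHit_unique hκ0 hκ1 k n (x 2)
  · push Not at hx
    have e : ∀ p : Hor × ℝ, x - toPt p ∈ omega3 κ ↔ ∃ i, x - (toPt p + pY i) ∈ block := by
      intro p
      constructor
      · rintro (⟨i, hi, -⟩ | ⟨k, n, hf, -⟩)
        · exact ⟨i, by rw [← sub_sub]; exact hi⟩
        · refine absurd ?_ (hx k (n + p.1))
          simpa [sub_sub, add_comm] using hf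
      · rintro ⟨i, hi⟩
        rw [← sub_sub] at hi
        refine Or.inl ⟨i, hi, fun hh => ?_⟩
        obtain ⟨k, f1, f2, f3, f4, -⟩ := Set.mem_iUnion.1 hh
        refine hx k (p.1 + (0, ((i : ℕ) : ℤ))) ?_
        simp [pY_zero, pY_one] at f1 f2 f3 f4
        unfold Foot
        simp
        refine ⟨?_, ?_, ?_, ?_⟩ <;> linarith
    obtain ⟨u, ⟨hc, hu⟩, huu⟩ := block_partition κ x
    obtain ⟨⟨p, i⟩, ⟨hp, rfl⟩, hpu⟩ := corner_exists hc
    refine ⟨p, ⟨hp, (e p).2 ⟨i, hu⟩⟩, ?_⟩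
    rintro q ⟨hq, hqx⟩
    obtain ⟨j, hj⟩ := (e q).1 hqx
    exact congrArg Prod.fst (hpu (q, j) ⟨hq, (huu _ ⟨corner_of_sol hq j, hj⟩).symm⟩)

/-- The tile tiles space by translations. -/
theorem rtiles_sol {κ : ℝ} (hκ0 : 0 < κ) (hκ1 : κ < 1 / 4) :
    RTiles (omega3 κ) (toPt '' sol κ) := by
  refine ⟨Filter.Eventually.of_forall fun x => ?_, ?_⟩
  · obtain ⟨p, ⟨hp, hx⟩, -⟩ := omega3_partition hκ0 hκ1 x
    exact ⟨toPt p, ⟨p, hp, rfl⟩, hx⟩
  · rintro _ ⟨p, hp, rfl⟩ _ ⟨q, hq, rfl⟩ hne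
    refine measure_mono_null (fun x hx => ?_) (measure_empty (μ := volume))
    exact hne (congrArg toPt ((omega3_partition hκ0 hκ1 x).unique ⟨hp, hx.1⟩ ⟨hq, hx.2⟩))

end Vale.Agent.P043.Three
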