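import Vale.Agent.P043.Three.Block
import Mathlib.Algebra.Module.ZLattice.Basic
import Mathlib.MeasureTheory.Group.FundamentalDomain

/-!
Measures of the block, its holes and its hole-free part; overlapping blocks have overlapping
hole-free parts; a periodic packing of full density is a tiling.
-/

namespace Vale.Agent.P043.Three

open MeasureTheory Set Function
open scoped Pointwise
open Vale.Agent.P043.Aperiodic Vale.Agent.P043.Aperiodic.Euclid

/-- A half-open box. -/
private def hbox (a b : Fin 3 → ℝ) : Set Pt := univ.pi fun l => Ico (a l) (b l)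

private theorem measurableSet_hbox (a b : Fin 3 → ℝ) : MeasurableSet (hbox a b) :=
  MeasurableSet.univ_pi fun _ => measurableSet_Ico

private theorem volume_hbox (a b : Fin 3 → ℝ) :
    volume (hbox a b) = ENNReal.ofReal (b 0 - a 0) * ENNReal.ofReal (b 1 - a 1) *
      ENNReal.ofReal (b 2 - a 2) := by
  rw [hbox, Real.volume_pi_Ico, Fin.prod_univ_three]

private theorem cube_eq : (cube : Set Pt) = hbox (fun _ => 0) fun _ => 1 := by
  ext y; simp [cube, hbox]

private theorem dent3_eq (a : Fin 3) : dent3 a = hbox (dlo a) (dhi a) := by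
  ext y; simp [dent3, hbox]

private theorem holeCol_eq (k : Fin 4) : holeCol k = hbox ![7 / 20 + (k : ℕ) / 200, 7 / 20, 0]
    ![7 / 20 + (k : ℕ) / 200 + 1 / 300, 3 / 8, 1] := by
  ext y; simp [holeCol, hbox, Fin.forall_fin_succ, and_assoc]

theorem measurableSet_dent3 (a : Fin 3) : MeasurableSet (dent3 a) := by
  rw [dent3_eq]; exact measurableSet_hbox _ _

theorem measurableSet_holeCol (k : Fin 4) : MeasurableSet (holeCol k) := by
  rw [holeCol_eq]; exact measurableSet_hbox _ _

theorem measurableSet_block : MeasurableSet block := by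
  have h : ∀ a : Fin 3, Measurable fun x : Pt => x - axisVec a := fun a => by fun_prop
  exact ((cube_eq ▸ measurableSet_hbox _ _).diff (.iUnion measurableSet_dent3)).union
    (.iUnion fun a => h a (measurableSet_dent3 a))

theorem measurableSet_blockCore : MeasurableSet blockCore :=
  measurableSet_block.diff (.iUnion measurableSet_holeCol)

theorem dent3_subset_cube (a : Fin 3) : dent3 a ⊆ cube := fun y hy l => by
  have := hy l
  fin_cases a <;> fin_cases l <;> simp [dlo, dhi] at this ⊢ <;> constructor <;> linarith [this.1, this.2]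

theorem block_coord {x : Pt} (hx : x ∈ block) :
    x ∈ cube \ ⋃ a, dent3 a ∨
      ∃ a, x - axisVec a ∈ dent3 a ∧ (1 ≤ x a ∧ x a < 21 / 20) ∧
        ∀ l ≠ a, 0 ≤ x l ∧ x l < 1 := by
  rcases hx with hx | hx
  · exact Or.inl hx
  obtain ⟨a, ha⟩ := mem_iUnion.1 hx
  refine Or.inr ⟨a, ha, ?_, fun l hl => ?_⟩
  · have := ha a
    simp [dlo, dhi, axisVec] at this
    constructor <;> linarith [this.1, this.2]
  · have := dent3_subset_cube a ha l
    simpa [axisVec, hl] using this

theorem block_bounds {x : Pt} (hx : x ∈ block) (l : Fin 3) : 0 ≤ x l ∧ x l < 21 / 20 := by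
  rcases block_coord hx with h | ⟨a, -, ha, h⟩
  · exact ⟨(h.1 l).1, (h.1 l).2.trans (by norm_num)⟩
  · rcases eq_or_ne l a with rfl | hl
    · exact ⟨zero_le_one.trans ha.1, ha.2⟩
    · exact ⟨(h l hl).1, (h l hl).2.trans (by norm_num)⟩

theorem isBounded_block : Bornology.IsBounded block :=
  (Metric.isBounded_Icc (0 : Pt) (fun _ => 21 / 20)).subset fun _ hx =>
    ⟨fun l => (block_bounds hx l).1, fun l => (block_bounds hx l).2.le⟩

theorem blockCore_subset_block : blockCore ⊆ block := sdiff_subset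

theorem isBounded_blockCore : Bornology.IsBounded blockCore :=
  isBounded_block.subset blockCore_subset_block

theorem holeCol_subset_block (k : Fin 4) : holeCol k ⊆ block := by
  intro y hy
  obtain ⟨h1, h2, h3, h4, h5, h6⟩ := hy
  have hk : ((k : ℕ) : ℝ) ≤ 3 := by
    have := k.isLt
    exact_mod_cast (by omega : (k : ℕ) ≤ 3)
  have hk0 : (0 : ℝ) ≤ ((k : ℕ) : ℝ) := Nat.cast_nonneg _
  refine Or.inl ⟨fun l => by fin_cases l <;> simp <;> constructor <;> linarith, ?_⟩
  simp only [mem_iUnion, not_exists]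
  intro a ha
  have := ha 0
  fin_cases a <;> simp [dlo, dhi] at this <;> linarith [this.1, this.2]

theorem holeCol_disjoint : Pairwise (Disjoint on holeCol) := by
  intro k l hkl
  refine Set.disjoint_left.2 fun y hy hy' => ?_
  rcases lt_or_gt_of_ne (Fin.val_ne_of_ne hkl) with h | h
  · have : ((k : ℕ) : ℝ) + 1 ≤ (l : ℕ) := by exact_mod_cast h
    linarith [hy.2.1, hy'.1]
  · have : ((l : ℕ) : ℝ) + 1 ≤ (k : ℕ) := by exact_mod_cast h
    linarith [hy'.2.1, hy.1]

theorem volume_holeCol (k : Fin 4) : volume (holeCol k) = ENNReal.ofReal (1 / 12000) := by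
  rw [holeCol_eq, volume_hbox]
  simp only [Matrix.cons_val, add_sub_cancel_left]
  rw [← ENNReal.ofReal_mul (by norm_num), ← ENNReal.ofReal_mul (by norm_num)]
  norm_num

theorem volume_block : volume block = 1 := by
  have hdd : Pairwise (Disjoint on dent3) := by
    intro a b hab
    refine Set.disjoint_left.2 fun y hy hy' => ?_
    have h1 := hy a; have h2 := hy' a; have h3 := hy b; have h4 := hy' b
    fin_cases a <;> fin_cases b <;> simp [dlo, dhi] at h1 h2 h3 h4 hab ⊢ <;>
      linarith [h1.1, h1.2, h2.1, h2.2, h3.1, h3.2, h4.1, h4.2]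
  have hm : ∀ a : Fin 3, MeasurableSet {x : Pt | x - axisVec a ∈ dent3 a} := fun a =>
    (by fun_prop : Measurable fun x : Pt => x - axisVec a) (measurableSet_dent3 a)
  have hsd : Pairwise (Disjoint on fun a => {x : Pt | x - axisVec a ∈ dent3 a}) := by
    intro a b hab
    refine Set.disjoint_left.2 fun y hy hy' => ?_
    have h1 := hy a
    have h2 := dent3_subset_cube b hy' a
    simp [axisVec, dlo, dhi, hab] at h1 h2
    linarith [h1.1, h2.2]
  have hout : Disjoint (cube \ ⋃ a, dent3 a) (⋃ a, {x : Pt | x - axisVec a ∈ dent3 a}) := by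
    refine Set.disjoint_left.2 fun y hy hy' => ?_
    obtain ⟨a, ha⟩ := mem_iUnion.1 hy'
    have h1 := ha a
    simp [axisVec, dlo, dhi] at h1
    linarith [h1.1, (hy.1 a).2]
  have hsh : ∀ a : Fin 3, volume {x : Pt | x - axisVec a ∈ dent3 a} = volume (dent3 a) := fun a => by
    simp only [sub_eq_add_neg]
    exact measure_preimage_add_right volume (-axisVec a) _
  have hc : volume (cube : Set Pt) = 1 := by
    rw [cube_eq, volume_hbox]; simp
  have hsub : (⋃ a, dent3 a) ⊆ cube := iUnion_subset dent3_subset_cube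
  rw [block, measure_union hout (.iUnion hm), measure_iUnion hsd hm, tsum_congr hsh,
    ← measure_iUnion hdd measurableSet_dent3,
    measure_sdiff hsub (MeasurableSet.iUnion measurableSet_dent3).nullMeasurableSet
      ((measure_mono hsub).trans_lt (hc ▸ ENNReal.one_lt_top)).ne,
    tsub_add_cancel_of_le (measure_mono hsub), hc]

theorem volume_blockCore : volume blockCore = ENNReal.ofReal (1 - 4 / 12000) := by
  have h : volume (⋃ k, holeCol k) = ENNReal.ofReal (4 / 12000) := by
    rw [measure_iUnion holeCol_disjoint measurableSet_holeCol, tsum_fintype]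
    simp only [volume_holeCol, Fin.sum_univ_four]
    rw [← ENNReal.ofReal_add (by norm_num) (by norm_num), ← ENNReal.ofReal_add (by norm_num)
      (by norm_num), ← ENNReal.ofReal_add (by norm_num) (by norm_num)]
    norm_num
  rw [blockCore, measure_sdiff (iUnion_subset holeCol_subset_block)
    (MeasurableSet.iUnion measurableSet_holeCol).nullMeasurableSet (h ▸ ENNReal.ofReal_ne_top),
    volume_block, h, ENNReal.ofReal_sub _ (by norm_num), ENNReal.ofReal_one]

/-- Coordinates avoiding dents and holes. -/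
private def good : Set ℝ := Ioo 0 (1 / 5) ∪ Ioo (2 / 5) 1

private theorem exists_good_pair {w : ℝ} (h : |w| < 1) : ∃ t, t ∈ good ∧ t - w ∈ good := by
  have key : ∀ v : ℝ, 0 ≤ v → v < 1 → ∃ t, t ∈ good ∧ t + v ∈ good := by
    intro v h0 h1
    rcases lt_or_ge v (3 / 5) with h2 | h2
    · exact ⟨(2 / 5 + (1 - v)) / 2, Or.inr ⟨by linarith, by linarith⟩,
        Or.inr ⟨by linarith, by linarith⟩⟩
    · have a := min_le_left (1 - v) (1 / 5)
      have b := min_le_right (1 - v) (1 / 5 : ℝ)
      have c : 0 < min (1 - v) (1 / 5) := lt_min (by linarith) (by norm_num)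
      exact ⟨min (1 - v) (1 / 5) / 2, Or.inl ⟨by linarith, by linarith⟩,
        Or.inr ⟨by linarith, by linarith⟩⟩
  rcases le_total 0 w with h0 | h0
  · obtain ⟨t, h1, h2⟩ := key w h0 (abs_lt.1 h).2
    exact ⟨t + w, h2, by rwa [add_sub_cancel_right]⟩
  · obtain ⟨t, h1, h2⟩ := key (-w) (neg_nonneg.2 h0) (by linarith [(abs_lt.1 h).1])
    exact ⟨t, h1, by rwa [sub_eq_add_neg]⟩

private theorem mem_blockCore_of_good {y : Pt} (h : ∀ l, y l ∈ good) : y ∈ blockCore := by
  have hc : y ∈ (cube : Set Pt) := fun l => by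
    rcases h l with ⟨a, b⟩ | ⟨a, b⟩ <;> constructor <;> linarith
  refine ⟨Or.inl ⟨hc, ?_⟩, ?_⟩
  · simp only [mem_iUnion, not_exists]
    intro a ha
    have h0 := ha 0; have h1 := ha 1
    rcases h 0 with g0 | g0 <;> rcases h 1 with g1 | g1 <;>
      fin_cases a <;> simp [dlo, dhi] at h0 h1 <;>
        linarith [g0.1, g0.2, g1.1, g1.2, h0.1, h0.2, h1.1, h1.2]
  · simp only [mem_iUnion, not_exists]
    intro k hk
    have hk' : ((k : ℕ) : ℝ) ≤ 3 := by
      have := k.isLt
      exact_mod_cast (by omega : (k : ℕ) ≤ 3)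
    have hk0 : (0 : ℝ) ≤ ((k : ℕ) : ℝ) := Nat.cast_nonneg _
    rcases h 0 with g | g <;> linarith [hk.1, hk.2.1, g.1, g.2]

private theorem overlap_of_open {w : Pt} {U : Set Pt} (hU : IsOpen U) (hne : U.Nonempty)
    (h : U ⊆ blockCore ∩ {x | x - w ∈ blockCore}) :
    volume (blockCore ∩ {x | x - w ∈ blockCore}) ≠ 0 :=
  fun h0 => (hU.measure_pos volume hne).ne' (measure_mono_null h h0)

private theorem overlap_neg (S T : Set Pt) (w : Pt) :
    volume (S ∩ {x | x - w ∈ T}) = volume (T ∩ {x | x - -w ∈ S}) := by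
  have : (fun x => x + w) ⁻¹' (S ∩ {x | x - w ∈ T}) = T ∩ {x | x - -w ∈ S} := by
    ext x; simp [and_comm]
  rw [← this, measure_preimage_add_right]

/-- A hole meeting a far block meets it in a bump on the top face, which sticks out of the hole. -/
private theorem overlap_of_hole {w : Pt} {k : Fin 4} {l : Fin 3} (hl : 1 ≤ |w l|) {y : Pt}
    (hy : y ∈ holeCol k) (hx : y - w ∈ block) :
    volume (blockCore ∩ {x | x - w ∈ blockCore}) ≠ 0 := by
  have hk : ((k : ℕ) : ℝ) ≤ 3 := by
    have := k.isLt
    exact_mod_cast (by omega : (k : ℕ) ≤ 3)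
  have hk0 : (0 : ℝ) ≤ ((k : ℕ) : ℝ) := Nat.cast_nonneg _
  have hc : y ∈ (cube : Set Pt) := fun i => by
    obtain ⟨h1, h2, h3, h4, h5, h6⟩ := hy
    fin_cases i <;> simp <;> constructor <;> linarith
  obtain ⟨h1, h2, h3, h4, h5, h6⟩ := hy
  rcases block_coord hx with h | ⟨a, had, ha, hrest⟩
  · have := h.1 l; have := hc l
    simp only [Pi.sub_apply] at *
    rcases le_abs'.1 hl with e | e <;> linarith
  obtain rfl : l = a := by
    by_contra hne
    have := hrest l hne; have := hc l
    simp only [Pi.sub_apply] at *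
    rcases le_abs'.1 hl with e | e <;> linarith
  have hw : w l ≤ -1 := by
    have := hc l
    simp only [Pi.sub_apply] at ha
    rcases le_abs'.1 hl with e | e <;> linarith
  obtain rfl : l = 2 := by
    have := hc l
    fin_cases l <;> simp at ha hw ⊢ <;> linarith [ha.2]
  have e0 := had 0; have e1 := had 1; have e2 := had 2
  simp [dlo, dhi, axisVec] at e0 e1 e2 hw
  set U : Set Pt := ((univ.pi fun i => ![Ioo (1 / 20) 1,
      Ioo (3 / 10) (7 / 20) ∪ Ioo (3 / 8) 1, Ioo 0 1] i) ∩
    (fun x : Pt => x - w) ⁻¹' univ.pi fun i => ![Ioo (1 / 5) (3 / 10), Ioo (1 / 5) (3 / 10),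
      Ioo 1 (21 / 20)] i)
  have hU : IsOpen U := by
    refine (isOpen_set_pi finite_univ fun i _ => ?_).inter
      ((isOpen_set_pi finite_univ fun i _ => ?_).preimage (by fun_prop))
    · fin_cases i
      · exact isOpen_Ioo
      · exact isOpen_Ioo.union isOpen_Ioo
      · exact isOpen_Ioo
    · fin_cases i <;> exact isOpen_Ioo
  have hne : U.Nonempty := by
    obtain ⟨s, hs, hs'⟩ : ∃ s : ℝ, s + w 1 ∈ Ioo (3 / 10) (7 / 20) ∪ Ioo (3 / 8) 1 ∧
        s ∈ Ioo (1 / 5 : ℝ) (3 / 10) := by
      rcases lt_or_ge (3 / 40) (w 1) with g | g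
      · refine ⟨(max (1 / 5) (3 / 8 - w 1) + 3 / 10) / 2, Or.inr ?_, ?_⟩ <;>
          rcases max_choice (1 / 5) (3 / 8 - w 1) with m | m <;>
            have := le_max_left (1 / 5) (3 / 8 - w 1) <;>
            have := le_max_right (1 / 5) (3 / 8 - w 1) <;>
            constructor <;> linarith [e1.1, e1.2]
      · exact ⟨13 / 40 - w 1, Or.inl ⟨by linarith, by linarith⟩,
          by linarith [e1.2], by linarith [e1.2]⟩
    refine ⟨![1 / 4 + w 0, s + w 1, (max 1 (-w 2) + 21 / 20) / 2 + w 2], ?_, ?_⟩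
    · intro i _
      fin_cases i <;> simp
      · constructor <;> linarith [e0.1, e0.2]
      · simpa using hs
      · have := le_max_left 1 (-w 2); have := le_max_right 1 (-w 2)
        rcases max_choice 1 (-w 2) with m | m <;> constructor <;> linarith [e2.1, e2.2]
    · intro i _
      fin_cases i <;> simp
      · norm_num
      · simpa using hs'
      · have := le_max_left 1 (-w 2); have := le_max_right 1 (-w 2)
        rcases max_choice 1 (-w 2) with m | m <;> constructor <;> linarith [e2.1, e2.2]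
  refine overlap_of_open hU hne fun z ⟨hz, hz'⟩ => ⟨?_, ?_⟩
  · have z0 : z 0 ∈ Ioo (1 / 20 : ℝ) 1 := hz 0 (mem_univ _)
    have z1 : z 1 ∈ Ioo (3 / 10 : ℝ) (7 / 20) ∪ Ioo (3 / 8) 1 := hz 1 (mem_univ _)
    have z2 : z 2 ∈ Ioo (0 : ℝ) 1 := hz 2 (mem_univ _)
    refine ⟨Or.inl ⟨fun i => ?_, ?_⟩, ?_⟩
    · rcases z1 with g | g <;> fin_cases i <;> simp <;>
        constructor <;> linarith [z0.1, z0.2, z2.1, z2.2, g.1, g.2]
    · simp only [mem_iUnion, not_exists]
      intro b hb
      have b0 := hb 0; have b1 := hb 1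
      rcases z1 with g | g <;> fin_cases b <;> simp [dlo, dhi] at b0 b1 <;>
        linarith [z0.1, g.1, b0.2, b1.2]
    · simp only [mem_iUnion, not_exists]
      intro j hj
      rcases z1 with g | g <;> linarith [g.1, g.2, hj.2.2.1, hj.2.2.2.1]
  · have z0 : (z - w) 0 ∈ Ioo (1 / 5 : ℝ) (3 / 10) := hz' 0 (mem_univ _)
    have z1 : (z - w) 1 ∈ Ioo (1 / 5 : ℝ) (3 / 10) := hz' 1 (mem_univ _)
    have z2 : (z - w) 2 ∈ Ioo (1 : ℝ) (21 / 20) := hz' 2 (mem_univ _)
    refine ⟨Or.inr (mem_iUnion.2 ⟨2, fun i => ?_⟩), ?_⟩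
    · fin_cases i <;> simp [dlo, dhi, axisVec] at z0 z1 z2 ⊢ <;>
        constructor <;> linarith [z0.1, z0.2, z1.1, z1.2, z2.1, z2.2]
    · simp only [mem_iUnion, not_exists]
      intro j hj
      linarith [z2.1, hj.2.2.2.2.2]

/-- Overlapping blocks have overlapping hole-free parts. -/
theorem block_overlap {w : Pt} (h : volume (block ∩ {x | x - w ∈ block}) ≠ 0) :
    volume (blockCore ∩ {x | x - w ∈ blockCore}) ≠ 0 := by
  by_cases hs : ∀ l, |w l| < 1
  · choose t ht ht' using fun l => exists_good_pair (hs l)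
    have hgood : IsOpen good := isOpen_Ioo.union isOpen_Ioo
    refine overlap_of_open
      (U := (univ.pi fun _ => good) ∩ (fun x : Pt => x - w) ⁻¹' univ.pi fun _ => good)
      ((isOpen_set_pi finite_univ fun _ _ => hgood).inter
        ((isOpen_set_pi finite_univ fun _ _ => hgood).preimage (by fun_prop)))
      ⟨t, fun l _ => ht l, fun l _ => ht' l⟩
      fun z hz => ⟨mem_blockCore_of_good fun l => hz.1 l (mem_univ l),
        mem_blockCore_of_good fun l => hz.2 l (mem_univ l)⟩
  push Not at hs
  obtain ⟨l, hl⟩ := hs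
  by_cases h1 : ∃ k, ∃ y ∈ holeCol k, y - w ∈ block
  · obtain ⟨k, y, hy, hx⟩ := h1
    exact overlap_of_hole hl hy hx
  by_cases h2 : ∃ k, ∃ y ∈ holeCol k, y - -w ∈ block
  · obtain ⟨k, y, hy, hx⟩ := h2
    rw [overlap_neg]
    exact overlap_of_hole (l := l) (by simpa using hl) hy hx
  push Not at h1 h2
  intro h0
  refine h (measure_mono_null (fun x hx => ?_) h0)
  refine ⟨⟨hx.1, ?_⟩, hx.2, ?_⟩ <;> simp only [mem_iUnion, not_exists] <;> intro k hk
  · exact h1 k x hk hx.2
  · exact h2 k (x - w) hk (by simpa using hx.1)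

private theorem volume_translate (S : Set Pt) (a : Pt) : volume {x | x - a ∈ S} = volume S := by
  simp only [sub_eq_add_neg]
  exact measure_preimage_add_right volume (-a) S

private theorem measurableSet_translate {S : Set Pt} (hS : MeasurableSet S) (a : Pt) :
    MeasurableSet {x | x - a ∈ S} :=
  (by fun_prop : Measurable fun x : Pt => x - a) hS

private theorem tsum_indicator_eq {α : Type*} (D : Set Pt) (f : α → Pt) :
    ∑' a, D.indicator (1 : Pt → ENNReal) (f a) = ∑' _ : ↥(f ⁻¹' D), (1 : ENNReal) := by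
  rw [tsum_subtype (f ⁻¹' D) fun _ => (1 : ENNReal)]
  exact tsum_congr fun a => rfl

/-- All translates of the fundamental domain contain equally many points of a periodic set. -/
private theorem count_const (b : Module.Basis (Fin 3) ℝ Pt) {A : Set Pt}
    (hA : ∀ g ∈ Submodule.span ℤ (range b), ∀ a, a + g ∈ A ↔ a ∈ A) (y : Pt) :
    ∑' a : A, (ZSpan.fundamentalDomain b).indicator (1 : Pt → ENNReal) (y + a.1) =
      ∑' a : A, (ZSpan.fundamentalDomain b).indicator 1 a.1 := by
  have hfr : ∀ z ∈ A, ∀ u : Pt, ZSpan.fract b (u + z) - u ∈ A := by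
    intro z hz u
    rw [ZSpan.fract_apply, show u + z - ↑(ZSpan.floor b (u + z)) - u
      = z + -(ZSpan.floor b (u + z) : Pt) by abel]
    exact (hA _ (neg_mem (ZSpan.floor b (u + z)).2) z).2 hz
  have hmem : ∀ z, z ∈ ZSpan.fundamentalDomain b → ZSpan.fract b z = z := fun z hz =>
    ZSpan.fract_eq_self.2 hz
  rw [tsum_indicator_eq _ fun a : A => y + a.1, tsum_indicator_eq _ fun a : A => a.1]
  let e : ↥((fun a : A => y + a.1) ⁻¹' ZSpan.fundamentalDomain b) ≃
      ↥((fun a : A => a.1) ⁻¹' ZSpan.fundamentalDomain b) :=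
    { toFun := fun a => ⟨⟨ZSpan.fract b a.1.1, by simpa using hfr _ a.1.2 0⟩,
        ZSpan.fract_mem_fundamentalDomain b _⟩
      invFun := fun a => ⟨⟨ZSpan.fract b (y + a.1.1) - y, hfr _ a.1.2 y⟩, by
        simp only [mem_preimage, add_sub_cancel]
        exact ZSpan.fract_mem_fundamentalDomain b _⟩
      left_inv := fun a => by
        refine Subtype.ext (Subtype.ext ?_)
        simp only
        rw [ZSpan.fract_apply b a.1.1, show y + (a.1.1 - ↑(ZSpan.floor b a.1.1))
          = -(ZSpan.floor b a.1.1 : Pt) + (y + a.1.1) by abel,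
          ZSpan.fract_zSpan_add _ _ (neg_mem (ZSpan.floor b a.1.1).2), hmem _ a.2]
        exact add_sub_cancel_left y a.1.1
      right_inv := fun a => by
        refine Subtype.ext (Subtype.ext ?_)
        simp only
        rw [ZSpan.fract_apply b (y + a.1.1), show y + a.1.1 - ↑(ZSpan.floor b (y + a.1.1)) - y
          = -(ZSpan.floor b (y + a.1.1) : Pt) + a.1.1 by abel,
          ZSpan.fract_zSpan_add _ _ (neg_mem (ZSpan.floor b (y + a.1.1)).2), hmem _ a.2] }
  exact e.tsum_eq fun _ => (1 : ENNReal)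

/-- The translates of a set take up its volume times the number of points in the domain. -/
private theorem tsum_inter_domain (b : Module.Basis (Fin 3) ℝ Pt) {A : Set Pt} [Countable A]
    (hA : ∀ g ∈ Submodule.span ℤ (range b), ∀ a, a + g ∈ A ↔ a ∈ A) (S : Set Pt) :
    ∑' a : A, volume ({x | x - a.1 ∈ S} ∩ ZSpan.fundamentalDomain b) =
      (∑' a : A, (ZSpan.fundamentalDomain b).indicator 1 a.1) * volume S := by
  have hD := ZSpan.fundamentalDomain_measurableSet b
  have hterm : ∀ a : A, volume ({x | x - a.1 ∈ S} ∩ ZSpan.fundamentalDomain b) =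
      ∫⁻ y in S, (ZSpan.fundamentalDomain b).indicator 1 (y + a.1) := fun a => by
    have hm : MeasurableSet ((fun y : Pt => y + a.1) ⁻¹' ZSpan.fundamentalDomain b) :=
      (by fun_prop : Measurable fun y : Pt => y + a.1) hD
    have : (fun y : Pt => (ZSpan.fundamentalDomain b).indicator (1 : Pt → ENNReal) (y + a.1)) =
        ((fun y : Pt => y + a.1) ⁻¹' ZSpan.fundamentalDomain b).indicator fun _ => 1 := by
      funext z
      exact (Set.indicator_comp_right (s := ZSpan.fundamentalDomain b)
        (g := fun _ : Pt => (1 : ENNReal)) fun y : Pt => y + a.1).symm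
    rw [this, lintegral_indicator_const hm, one_mul, Measure.restrict_apply hm,
      ← measure_preimage_add_right volume a.1]
    congr 1
    ext y; simp [and_comm]
  simp only [hterm]
  have hmeas : ∀ a : A, AEMeasurable
      (fun y => (ZSpan.fundamentalDomain b).indicator (1 : Pt → ENNReal) (y + a.1))
      (volume.restrict S) := fun a =>
    (((measurable_const (a := (1 : ENNReal))).indicator hD).comp
      (measurable_add_const a.1)).aemeasurable
  rw [← lintegral_tsum hmeas]
  simp only [count_const b hA, lintegral_const, Measure.restrict_apply_univ]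

/-- Periodic translation sets give every set the same density per volume, so a periodic packing of
a set of at least the volume of a tile is a tiling. -/
theorem tiles_of_packing {A : Set Pt} (hA : RPeriodic A) {Ω Ω2 : Set Pt} (hΩ : MeasurableSet Ω)
    (hΩ2 : MeasurableSet Ω2) (hpos : volume Ω ≠ 0) (hvol : volume Ω ≤ volume Ω2)
    (hT : RTiles Ω A)
    (hP : A.Pairwise fun a b => volume ({x | x - a ∈ Ω2} ∩ {x | x - b ∈ Ω2}) = 0) :
    RTiles Ω2 A := by
  classical
  refine ⟨?_, hP⟩
  obtain ⟨v, hv, hper⟩ := hA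
  have hcard : Fintype.card (Fin 3) = Module.finrank ℝ Pt := by simp
  set b := basisOfLinearIndependentOfCardEqFinrank hv hcard
  have hb : ⇑b = v := coe_basisOfLinearIndependentOfCardEqFinrank hv hcard
  set L : Submodule ℤ Pt := Submodule.span ℤ (Set.range b) with hLdef
  have hL : ∀ g ∈ L, ∀ a, a + g ∈ A ↔ a ∈ A := by
    intro g hg
    let P : AddSubgroup Pt :=
      { carrier := {g | ∀ a, a + g ∈ A ↔ a ∈ A}
        add_mem' := fun {g g'} hg hg' s => by rw [← add_assoc, hg', hg]
        zero_mem' := fun s => by simp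
        neg_mem' := fun {g} hg s => by simpa using (hg (s + -g)).symm }
    refine Submodule.span_induction (p := fun g _ => g ∈ P) ?_ P.zero_mem
      (fun _ _ _ _ => P.add_mem) (fun n x _ hx => P.zsmul_mem hx n) hg
    rintro _ ⟨i, rfl⟩ a
    rw [hb]
    exact hper i a
  set D := ZSpan.fundamentalDomain b
  have hD : MeasurableSet D := ZSpan.fundamentalDomain_measurableSet b
  have hDtop : volume D ≠ ⊤ := (ZSpan.fundamentalDomain_isBounded b).measure_lt_top.ne
  have hF : IsAddFundamentalDomain L D volume := ZSpan.isAddFundamentalDomain b volume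
  have hsh : ∀ (S : Set Pt) (a : Pt), MeasurableSet S → MeasurableSet {x | x - a ∈ S} :=
    fun S a hS => measurableSet_translate hS a
  have hvs := volume_translate
  -- the translation set is countable
  have hcount : Countable A := by
    have h := Measure.countable_meas_pos_of_disjoint_iUnion₀
      (μ := (volume : Measure Pt)) (As := fun a : A => {x : Pt | x - a.1 ∈ Ω})
      (fun a => (hsh Ω a hΩ).nullMeasurableSet)
      (fun a c hac => hT.2 a.2 c.2 fun e => hac (Subtype.ext e))
    have : {a : A | 0 < volume {x : Pt | x - a.1 ∈ Ω}} = univ :=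
      eq_univ_of_forall fun a => by simpa [hvs, pos_iff_ne_zero] using hpos
    rw [this] at h
    exact countable_univ_iff.1 h
  have key := fun S => tsum_inter_domain b hL S
  -- compare on the domain
  have hU : ∀ S, MeasurableSet S →
      (A.Pairwise fun a c => volume ({x | x - a ∈ S} ∩ {x | x - c ∈ S}) = 0) →
      volume ((⋃ a : A, {x | x - a.1 ∈ S}) ∩ D) = (∑' a : A, D.indicator 1 a.1) * volume S := by
    intro S hS hpair
    rw [iUnion_inter, measure_iUnion₀ (f := fun a : A => {x | x - a.1 ∈ S} ∩ D) (fun a c hac => ?_)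
      fun a => ((hsh S a hS).inter hD).nullMeasurableSet, key S]
    exact measure_mono_null (inter_subset_inter inter_subset_left inter_subset_left)
      (hpair a.2 c.2 fun e => hac (Subtype.ext e))
  have hfull : volume ((⋃ a : A, {x | x - a.1 ∈ Ω}) ∩ D) = volume D := by
    refine measure_congr (ae_eq_set.2 ⟨by rw [Set.sdiff_eq_empty.2 inter_subset_right]; exact measure_empty, ?_⟩)
    refine measure_mono_null (fun x hx => ?_) (ae_iff.1 hT.1)
    simp only [mem_sdiff, mem_inter_iff, mem_iUnion, mem_ofPred_eq, Subtype.exists] at hx ⊢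
    rintro ⟨a, ha, hxa⟩
    exact hx.2 ⟨⟨a, ha, hxa⟩, hx.1⟩
  set U2 := ⋃ a : A, {x | x - a.1 ∈ Ω2} with hU2
  have hU2m : MeasurableSet U2 := .iUnion fun a => hsh Ω2 a hΩ2
  have hz : volume (U2ᶜ ∩ D) = 0 := by
    have e : volume (U2 ∩ D) = volume D := by
      refine le_antisymm (measure_mono inter_subset_right) ?_
      rw [hU Ω2 hΩ2 hP, ← hfull, hU Ω hΩ hT.2]
      gcongr
    rw [inter_comm, ← Set.sdiff_eq, ← sdiff_inter_self_eq_sdiff,
      measure_sdiff inter_subset_right (hU2m.inter hD).nullMeasurableSet (e ▸ hDtop), e,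
      tsub_self]
  have hinv : ∀ g : L, g +ᵥ U2ᶜ = U2ᶜ := by
    intro g
    ext x
    rw [mem_vadd_set_iff_neg_vadd_mem]
    simp only [hU2, mem_compl_iff, mem_iUnion, mem_ofPred_eq, Subtype.exists, not_iff_not]
    rw [Submodule.vadd_def, vadd_eq_add]
    constructor
    · rintro ⟨a, ha, hxa⟩
      refine ⟨a + g.1, (hL _ g.2 a).2 ha, ?_⟩
      rwa [show x - (a + g.1) = (↑(-g) : Pt) + x - a by simp; abel]
    · rintro ⟨a, ha, hxa⟩
      refine ⟨a + -g.1, (hL _ (L.neg_mem g.2) a).2 ha, ?_⟩
      rwa [show (↑(-g) : Pt) + x - (a + -g.1) = x - a by simp; abel]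
  have : VAddInvariantMeasure L Pt volume :=
    inferInstanceAs <| VAddInvariantMeasure L.toAddSubgroup Pt volume
  have := hF.measure_zero_of_invariant U2ᶜ hinv hz
  refine ae_iff.2 (measure_mono_null (fun x hx => ?_) this)
  simp only [mem_ofPred_eq, not_exists, not_and] at hx
  simp only [hU2, mem_compl_iff, mem_iUnion, mem_ofPred_eq, not_exists, Subtype.forall]
  exact hx

end Vale.Agent.P043.Three
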