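import Vale.Agent.P043.Three.System

/-!
On every line a common solution has, per eight cells, either one stack of two points or two single
points four cells apart with a fixed vertical drift.
-/

namespace Vale.Agent.P043.Three

variable {g : Hor} {β : ℝ} {A : Set (Hor × ℝ)}

/-- Invariance of `A` under the vertical shift by `2`. -/
def TwoPer (A : Set (Hor × ℝ)) : Prop := ∀ (z : Hor) (a : ℝ), (z, a + 2) ∈ A ↔ (z, a) ∈ A

theorem TwoPer.shift (hA : TwoPer A) {z : Hor} {a : ℝ} (h : (z, a) ∈ A) (k : ℤ) :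
    (z, a + 2 * k) ∈ A := by
  induction k using Int.induction_on with
  | zero => simpa using h
  | succ n ih =>
    have := (hA z _).2 ih
    push_cast at this ⊢
    rwa [show a + 2 * ((n : ℝ) + 1) = a + 2 * (n : ℝ) + 2 by ring]
  | pred n ih =>
    refine (hA z _).1 ?_
    push_cast at ih ⊢
    rwa [show a + 2 * (-(n : ℝ) - 1) + 2 = a + 2 * -(n : ℝ) by ring]

open Classical in
/-- The number of points of `A` over `z` modulo the vertical period. -/
noncomputable def cnt (A : Set (Hor × ℝ)) (z : Hor) : ℕ :=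
  if ∃ a, (z, a) ∈ A ∧ (z, a + 1) ∈ A then 2 else if ∃ a, (z, a) ∈ A then 1 else 0

theorem cnt_eq_two {z : Hor} (h : cnt A z = 2) : ∃ a, (z, a) ∈ A ∧ (z, a + 1) ∈ A := by
  by_contra h1
  unfold cnt at h
  rw [if_neg h1] at h
  split_ifs at h
  all_goals omega

theorem cnt_eq_one {z : Hor} (h : cnt A z = 1) :
    ∃ a, (z, a) ∈ A ∧ ¬∃ b, (z, b) ∈ A ∧ (z, b + 1) ∈ A := by
  unfold cnt at h
  by_cases h1 : ∃ a, (z, a) ∈ A ∧ (z, a + 1) ∈ A
  · rw [if_pos h1] at h
    omega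
  rw [if_neg h1] at h
  by_cases h2 : ∃ a, (z, a) ∈ A
  · obtain ⟨a, ha⟩ := h2
    exact ⟨a, ha, h1⟩
  · rw [if_neg h2] at h
    omega

/-- Two points of one target column differ by an integer. -/
theorem line_int (h : PieceTiles (lineT g β) A) (n : Hor) (i j : Fin 8) {a b : ℝ}
    (ha : (n - ((i : ℕ) : ℤ) • g, a) ∈ A) (hb : (n - ((j : ℕ) : ℤ) • g, b) ∈ A) :
    ∃ k : ℤ, b + offs β j = a + offs β i + k :=
  exists_int_diff (lineTiles_line h n) (i := (i, a)) (j := (j, b)) ha hb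

/-- Points at two different places of a window differ by an odd integer. -/
theorem line_odd (h : PieceTiles (lineT g β) A) (hA : TwoPer A) (n : Hor) {i j : Fin 8}
    (hij : i ≠ j) {a b : ℝ} (ha : (n - ((i : ℕ) : ℤ) • g, a) ∈ A)
    (hb : (n - ((j : ℕ) : ℤ) • g, b) ∈ A) :
    ∃ k : ℤ, b + offs β j = a + offs β i + (2 * k + 1) := by
  obtain ⟨k, hk⟩ := line_int h n i j ha hb
  obtain ⟨l, rfl⟩ | ⟨l, rfl⟩ := Int.even_or_odd k
  · have := eq_of_lo_eq (lineTiles_line h n) (i := (i, a + 2 * l)) (j := (j, b))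
      (hA.shift ha l) hb (by push_cast at hk ⊢; linarith)
    exact absurd (congrArg Prod.fst this) hij
  · exact ⟨l, by push_cast at hk; linarith⟩

/-- All points over one cell differ by integers. -/
theorem int_same (h : PieceTiles (lineT g β) A) {z : Hor} {a b : ℝ} (ha : (z, a) ∈ A)
    (hb : (z, b) ∈ A) : ∃ k : ℤ, b = a + k := by
  obtain ⟨k, hk⟩ := line_int h z 0 0 (a := a) (b := b) (by simpa using ha) (by simpa using hb)
  exact ⟨k, by linarith⟩

theorem cnt_two_of_odd (hA : TwoPer A) {z : Hor} {a b : ℝ} (ha : (z, a) ∈ A) (hb : (z, b) ∈ A)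
    {k : ℤ} (hk : b = a + (2 * k + 1)) : cnt A z = 2 := by
  refine if_pos ⟨a, ha, ?_⟩
  have := hA.shift hb (-k)
  rw [hk] at this
  push_cast at this
  rwa [show a + (2 * (k : ℝ) + 1) + 2 * -(k : ℝ) = a + 1 by ring] at this

theorem mem_of_single (h : PieceTiles (lineT g β) A) (hA : TwoPer A) {z : Hor} {a b : ℝ}
    (hz : cnt A z = 1) (ha : (z, a) ∈ A) (hb : (z, b) ∈ A) : ∃ k : ℤ, b = a + 2 * k := by
  obtain ⟨k, hk⟩ := int_same h ha hb
  obtain ⟨l, rfl⟩ | ⟨l, rfl⟩ := Int.even_or_odd k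
  · exact ⟨l, by push_cast at hk; linarith⟩
  · have := cnt_two_of_odd hA ha hb (k := l) (by push_cast at hk; linarith)
    omega

theorem mem_of_double (h : PieceTiles (lineT g β) A) (hA : TwoPer A) {z : Hor} {a : ℝ}
    (hz : cnt A z = 2) (ha : (z, a) ∈ A) (k : ℤ) : (z, a + k) ∈ A := by
  obtain ⟨c, hc, hc'⟩ := cnt_eq_two hz
  obtain ⟨m, hm⟩ := int_same h hc ha
  obtain ⟨l, hl⟩ | ⟨l, hl⟩ := Int.even_or_odd (m + k)
  · have := hA.shift hc l
    have e : ((m : ℝ) + k) = l + l := by exact_mod_cast hl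
    rwa [show a + (k : ℝ) = c + 2 * l by linarith]
  · have := hA.shift hc' l
    have e : ((m : ℝ) + k) = 2 * l + 1 := by exact_mod_cast hl
    rwa [show a + (k : ℝ) = c + 1 + 2 * l by linarith]

/-- A window of eight cells carries two points. -/
theorem window_sum (h : PieceTiles (lineT g β) A) (hA : TwoPer A) (n : Hor) :
    ∑ i : Fin 8, cnt A (n - ((i : ℕ) : ℤ) • g) = 2 := by
  classical
  have hY := lineTiles_line h n
  obtain ⟨⟨i0, a⟩, ha, -⟩ := hY.cover 0 1 one_pos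
  obtain ⟨⟨i1, b⟩, hb, hb'⟩ := exists_shift hY ha 1
  simp only [Int.cast_one] at hb'
  have owner : ∀ (i : Fin 8) (x : ℝ), (n - ((i : ℕ) : ℤ) • g, x) ∈ A → i = i0 ∨ i = i1 := by
    intro i x hx
    obtain ⟨k, hk⟩ := line_int h n i0 i ha hx
    obtain ⟨l, rfl⟩ | ⟨l, rfl⟩ := Int.even_or_odd k
    · exact Or.inl (congrArg Prod.fst (eq_of_lo_eq hY (i := (i, x)) (j := (i0, a + 2 * l)) hx
        (hA.shift ha l) (by push_cast at hk ⊢; linarith)))
    · exact Or.inr (congrArg Prod.fst (eq_of_lo_eq hY (i := (i, x)) (j := (i1, b + 2 * l)) hx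
        (hA.shift hb l) (by push_cast at hk ⊢; linarith)))
  have zero : ∀ i : Fin 8, i ≠ i0 → i ≠ i1 → cnt A (n - ((i : ℕ) : ℤ) • g) = 0 := by
    intro i hi hi'
    unfold cnt
    rw [if_neg, if_neg]
    · rintro ⟨x, hx⟩
      exact (owner i x hx).elim hi hi'
    · rintro ⟨x, hx, -⟩
      exact (owner i x hx).elim hi hi'
  by_cases he : i1 = i0
  · subst he
    rw [Finset.sum_eq_single i1 (fun i _ hi => zero i hi hi) (by simp)]
    exact cnt_two_of_odd hA ha hb (k := 0) (by push_cast; linarith)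
  have one : ∀ (i : Fin 8) (x y : ℝ) (j : Fin 8), (n - ((i : ℕ) : ℤ) • g, x) ∈ A →
      (n - ((j : ℕ) : ℤ) • g, y) ∈ A → i ≠ j → cnt A (n - ((i : ℕ) : ℤ) • g) = 1 := by
    intro i x y j hx hy hij
    unfold cnt
    rw [if_neg, if_pos ⟨x, hx⟩]
    rintro ⟨c, hc, hc'⟩
    obtain ⟨k, hk⟩ := line_odd h hA n hij hc hy
    obtain ⟨l, hl⟩ := line_odd h hA n hij hc' hy
    have : ((2 * (k - l) - 1 : ℤ) : ℝ) = 0 := by push_cast; linarith
    have h0 : 2 * (k - l) - 1 = 0 := by exact_mod_cast this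
    omega
  rw [Finset.sum_eq_add i0 i1 (Ne.symm he) (fun i _ hi => zero i hi.1 hi.2) (by simp) (by simp),
    one i0 a b i1 ha hb (Ne.symm he), one i1 b a i0 hb ha he]

theorem cnt_pos {z : Hor} (hz : cnt A z ≠ 0) : ∃ y, (z, y) ∈ A := by
  unfold cnt at hz
  by_contra h2
  rw [if_neg fun ⟨a, ha, _⟩ => h2 ⟨a, ha⟩, if_neg h2] at hz
  exact hz rfl

theorem cnt_add_eight (h : PieceTiles (lineT g β) A) (hA : TwoPer A) (z : Hor) :
    cnt A (z + (8 : ℤ) • g) = cnt A z := by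
  have h1 := window_sum h hA (z + (8 : ℤ) • g)
  have h2 := window_sum h hA (z + (7 : ℤ) • g)
  rw [Fin.sum_univ_eight] at h1 h2
  have e : ∀ (m i : ℤ), z + m • g - i • g = z + (m - i) • g := fun m i => by
    rw [sub_smul]; abel
  simp only [e, Fin.val_zero, Fin.val_one, Fin.val_two] at h1 h2
  norm_num at h1 h2 ⊢
  omega

/-- The drift of single points: they come in pairs four cells apart, each later one raised by
`β`. -/
theorem single_four (h : PieceTiles (lineT g β) A) (hA : TwoPer A)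
    (hβ : ∀ k : ℤ, β ≠ 2 * (k : ℝ) + 1) {z : Hor} {a : ℝ} (hz : cnt A z = 1) (ha : (z, a) ∈ A) :
    cnt A (z + (4 : ℤ) • g) = 1 ∧ (z + (4 : ℤ) • g, a + β) ∈ A := by
  have e : ∀ (m i : ℤ), z + m • g - i • g = z + (m - i) • g := fun m i => by
    rw [sub_smul]; abel
  have hw := window_sum h hA (z + (7 : ℤ) • g)
  rw [Fin.sum_univ_eight] at hw
  simp only [e, Fin.val_zero, Fin.val_one, Fin.val_two] at hw
  norm_num at hw
  -- a single point at distance one, two or three leads to an odd drift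
  have excl : ∀ (m : ℕ) (x y : ℝ) (w : Hor), 1 ≤ m → m ≤ 3 → (w, x) ∈ A →
      (w + (m : ℤ) • g, y) ∈ A → False := by
    intro m x y w hm hm' hx hy
    obtain ⟨k, hk⟩ := line_odd h hA (w + (m : ℤ) • g) (i := ⟨m, by omega⟩) (j := ⟨0, by omega⟩)
      (by simp [Fin.ext_iff]; omega) (a := x) (b := y)
      (by simpa using hx) (by simpa using hy)
    obtain ⟨l, hl⟩ := line_odd h hA (w + (4 : ℤ) • g) (i := ⟨4, by omega⟩)
      (j := ⟨4 - m, by omega⟩) (by simp [Fin.ext_iff]; omega) (a := x) (b := y)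
      (by simpa using hx) (by
        have : w + (4 : ℤ) • g - ((4 - m : ℕ) : ℤ) • g = w + (m : ℤ) • g := by
          rw [Nat.cast_sub (by omega : m ≤ 4), sub_smul, Nat.cast_ofNat]; abel
        exact this.symm ▸ hy)
    simp [offs, show m < 4 by omega, show 4 - m < 4 by omega] at hk hl
    exact hβ (k - l - 1) (by push_cast; linarith)
  have hpos : ∀ m : ℕ, cnt A (z + (m : ℤ) • g) ≠ 0 → ∃ y, (z + (m : ℤ) • g, y) ∈ A :=
    fun m => cnt_pos
  have low : ∀ m : ℕ, 1 ≤ m → m ≤ 3 → cnt A (z + (m : ℤ) • g) = 0 := fun m hm hm' => by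
    by_contra hne
    obtain ⟨y, hy⟩ := hpos m hne
    exact excl m a y z hm hm' ha hy
  have high : ∀ m : ℕ, 5 ≤ m → m ≤ 7 → cnt A (z + (m : ℤ) • g) = 0 := fun m hm hm' => by
    by_contra hne
    obtain ⟨y, hy⟩ := hpos m hne
    have h8 : cnt A (z + (m : ℤ) • g + ((8 - m : ℕ) : ℤ) • g) ≠ 0 := by
      rw [Nat.cast_sub (by omega : m ≤ 8), sub_smul, Nat.cast_ofNat,
        show z + (m : ℤ) • g + ((8 : ℤ) • g - (m : ℤ) • g) = z + (8 : ℤ) • g by abel,
        cnt_add_eight h hA, hz]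
      omega
    obtain ⟨x, hx⟩ := cnt_pos h8
    exact excl (8 - m) y x _ (by omega) (by omega) hy hx
  have h1 := low 1 le_rfl (by omega)
  have h2 := low 2 (by omega) (by omega)
  have h3 := low 3 (by omega) le_rfl
  have h5 := high 5 le_rfl (by omega)
  have h6 := high 6 (by omega) (by omega)
  have h7 := high 7 (by omega) le_rfl
  norm_num at h1 h2 h3 h5 h6 h7
  have h4 : cnt A (z + (4 : ℤ) • g) = 1 := by
    have e4 : cnt A (z + (4 : ℤ) • g) = cnt A (z + 4 * g) := by norm_num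
    omega
  refine ⟨h4, ?_⟩
  obtain ⟨y, hy, -⟩ := cnt_eq_one h4
  obtain ⟨k, hk⟩ := line_odd h hA (z + (4 : ℤ) • g) (i := (4 : Fin 8)) (j := (0 : Fin 8))
    (by decide) (a := a) (b := y) (by simpa using ha) (by simpa using hy)
  simp [offs] at hk
  have := hA.shift hy (-(k + 1))
  rwa [show y + 2 * ((-(k + 1) : ℤ) : ℝ) = a + β by push_cast; linarith] at this

end Vale.Agent.P043.Three
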