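import Mathlib

/-!
Five systems of interval pieces on `ℤ² × ℝ` and the non-existence of a periodic common solution.
-/

namespace Vale.Agent.P043.Three

/-- Horizontal cells. -/
abbrev Hor : Type := ℤ × ℤ

/-- Half-open intervals `[lo i, lo i + len i)`, `i ∈ I`: pairwise disjoint with dense union. -/
structure LineTiles {ι : Type*} (I : Set ι) (lo len : ι → ℝ) : Prop where
  disj : ∀ i ∈ I, ∀ j ∈ I, ∀ t : ℝ, lo i < t → t < lo i + len i → lo j < t → t < lo j + len j →
    i = j
  cover : ∀ a b : ℝ, a < b → ∃ i ∈ I, ∃ t, a < t ∧ t < b ∧ lo i < t ∧ t < lo i + len i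

/-- A piece of a tile: a cell, the lower end and the length of its interval. -/
structure Piece where
  cell : Hor
  lo : ℝ
  len : ℝ

/-- The indices of the translates of pieces in the column over `n`. -/
def colIdx {ι : Type*} (P : ι → Piece) (A : Set (Hor × ℝ)) (n : Hor) : Set (ι × ℝ) :=
  {q | (n - (P q.1).cell, q.2) ∈ A}

/-- `A` is a solution of the equation of the tile `P`. -/
def PieceTiles {ι : Type*} (P : ι → Piece) (A : Set (Hor × ℝ)) : Prop :=
  ∀ n : Hor, LineTiles (colIdx P A n) (fun q => q.2 + (P q.1).lo) (fun q => (P q.1).len)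

/-- The offset of the class `i` of a line tile. -/
noncomputable def offs (β : ℝ) (i : Fin 8) : ℝ := if (i : ℕ) < 4 then 0 else 1 + β

/-- The line tile of direction `g`. -/
noncomputable def lineT (g : Hor) (β : ℝ) (i : Fin 8) : Piece := ⟨((i : ℕ) : ℤ) • g, offs β i, 1⟩

/-- The line tile of direction `(0,1)` with its first piece raised by `2`. -/
noncomputable def raisedT (i : Fin 8) : Piece :=
  if i = 0 then ⟨0, 2, 1⟩ else lineT (0, 1) 0 i

/-- The split tile of direction `(1,0)`. -/
noncomputable def splitT (κ : ℝ) : Fin 10 → Piece :=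
  ![⟨(0, 0), 0, 1 - 2 * κ⟩, ⟨(-8, 0), 1 - 2 * κ, 2 * κ⟩, ⟨(4, 0), 1 - κ, 2 * κ⟩,
    ⟨(-4, 0), 1 + κ, 1 - 2 * κ⟩, lineT (1, 0) κ 1, lineT (1, 0) κ 2, lineT (1, 0) κ 3,
    lineT (1, 0) κ 5, lineT (1, 0) κ 6, lineT (1, 0) κ 7]

/-- `A` solves the five equations. -/
structure Solves (κ : ℝ) (A : Set (Hor × ℝ)) : Prop where
  ty : PieceTiles (lineT (0, 1) 0) A
  tr : PieceTiles raisedT A
  tx : PieceTiles (lineT (1, 0) κ) A
  tz : PieceTiles (lineT (1, -1) κ) A
  ts : PieceTiles (splitT κ) A

section Unit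

variable {ι : Type*} {I : Set ι} {lo : ι → ℝ}

theorem exists_next (h : LineTiles I lo fun _ => 1) {i : ι} (hi : i ∈ I) :
    (∃ j ∈ I, lo j = lo i + 1) ∧ ∃ j ∈ I, lo j = lo i - 1 := by
  constructor
  · have near : ∀ ε : ℝ, 0 < ε → ε < 1 / 2 →
        ∃ j ∈ I, lo i + 1 ≤ lo j ∧ lo j < lo i + 1 + ε := by
      intro ε he he'
      obtain ⟨j, hj, t, t1, t2, t3, t4⟩ := h.cover (lo i + 1) (lo i + 1 + ε) (by linarith)
      refine ⟨j, hj, le_of_not_gt fun hlt => ?_, by linarith⟩
      have hm : max (lo i) (lo j) < lo i + 1 := max_lt (by linarith) hlt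
      have := le_max_left (lo i) (lo j)
      have := le_max_right (lo i) (lo j)
      have e := h.disj i hi j hj ((max (lo i) (lo j) + (lo i + 1)) / 2) (by linarith) (by linarith)
        (by linarith) (by linarith)
      rw [← e] at t4
      linarith
    obtain ⟨j, hj, j1, j2⟩ := near (1 / 4) (by norm_num) (by norm_num)
    refine ⟨j, hj, le_antisymm (le_of_not_gt fun hlt => ?_) j1⟩
    obtain ⟨k, hk, k1, k2⟩ := near ((lo j - (lo i + 1)) / 2) (by linarith) (by linarith)
    obtain rfl := h.disj j hj k hk (lo j + 1 / 4) (by linarith) (by linarith) (by linarith)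
      (by linarith)
    linarith
  · have near : ∀ ε : ℝ, 0 < ε → ε < 1 / 2 →
        ∃ j ∈ I, lo j ≤ lo i - 1 ∧ lo i - 1 - ε < lo j := by
      intro ε he he'
      obtain ⟨j, hj, t, t1, t2, t3, t4⟩ := h.cover (lo i - ε) (lo i) (by linarith)
      refine ⟨j, hj, le_of_not_gt fun hlt => ?_, by linarith⟩
      have hm : lo i < min (lo i + 1) (lo j + 1) := lt_min (by linarith) (by linarith)
      have := min_le_left (lo i + 1) (lo j + 1)
      have := min_le_right (lo i + 1) (lo j + 1)
      have e := h.disj i hi j hj ((lo i + min (lo i + 1) (lo j + 1)) / 2) (by linarith)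
        (by linarith) (by linarith) (by linarith)
      rw [← e] at t3
      linarith
    obtain ⟨j, hj, j1, j2⟩ := near (1 / 4) (by norm_num) (by norm_num)
    refine ⟨j, hj, le_antisymm j1 (le_of_not_gt fun hlt => ?_)⟩
    obtain ⟨k, hk, k1, k2⟩ := near ((lo i - 1 - lo j) / 2) (by linarith) (by linarith)
    obtain rfl := h.disj j hj k hk (lo j + 3 / 4) (by linarith) (by linarith) (by linarith)
      (by linarith)
    linarith

theorem exists_shift (h : LineTiles I lo fun _ => 1) {i : ι} (hi : i ∈ I) (k : ℤ) :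
    ∃ j ∈ I, lo j = lo i + k := by
  induction k using Int.induction_on with
  | zero => exact ⟨i, hi, by simp⟩
  | succ n ih =>
    obtain ⟨j, hj, e⟩ := ih
    obtain ⟨j', hj', e'⟩ := (exists_next h hj).1
    exact ⟨j', hj', by rw [e', e]; push_cast; ring⟩
  | pred n ih =>
    obtain ⟨j, hj, e⟩ := ih
    obtain ⟨j', hj', e'⟩ := (exists_next h hj).2
    exact ⟨j', hj', by rw [e', e]; push_cast; ring⟩

theorem exists_int_diff (h : LineTiles I lo fun _ => 1) {i j : ι} (hi : i ∈ I) (hj : j ∈ I) :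
    ∃ k : ℤ, lo j = lo i + k := by
  obtain ⟨l, hl, e⟩ := exists_shift h hi ⌊lo j - lo i⌋
  have h1 := Int.floor_le (lo j - lo i)
  have h2 := Int.lt_floor_add_one (lo j - lo i)
  obtain rfl := h.disj l hl j hj ((lo j + lo l + 1) / 2) (by linarith) (by linarith) (by linarith)
    (by linarith)
  exact ⟨_, e⟩

theorem eq_of_lo_eq (h : LineTiles I lo fun _ => 1) {i j : ι} (hi : i ∈ I) (hj : j ∈ I)
    (e : lo i = lo j) : i = j :=
  h.disj i hi j hj (lo i + 1 / 2) (by linarith) (by linarith) (by linarith) (by linarith)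

end Unit

/-- Membership of a translate in a column, in coordinates. -/
theorem mem_line {g : Hor} {β : ℝ} {A : Set (Hor × ℝ)} {n : Hor} {i : Fin 8} {a : ℝ} :
    (i, a) ∈ colIdx (lineT g β) A n ↔ (n - ((i : ℕ) : ℤ) • g, a) ∈ A := Iff.rfl

theorem lineTiles_line {g : Hor} {β : ℝ} {A : Set (Hor × ℝ)} (h : PieceTiles (lineT g β) A)
    (n : Hor) : LineTiles (colIdx (lineT g β) A n) (fun q => q.2 + offs β q.1) (fun _ => 1) :=
  h n

/-- The vertical period `2`. -/
theorem two_periodic {κ : ℝ} {A : Set (Hor × ℝ)} (h : Solves κ A) (z : Hor) (a : ℝ) :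
    (z, a + 2) ∈ A ↔ (z, a) ∈ A := by
  have hY := lineTiles_line h.ty z
  have hR : LineTiles (colIdx raisedT A z) (fun q => q.2 + (raisedT q.1).lo) (fun _ => 1) := by
    have := h.tr z
    have e : (fun q : Fin 8 × ℝ => (raisedT q.1).len) = fun _ => 1 := by
      funext q
      unfold raisedT
      split <;> rfl
    rwa [e] at this
  have same : ∀ (i : Fin 8) (b : ℝ), i ≠ 0 → (i, b) ∈ colIdx (lineT (0, 1) 0) A z →
      (i, b) ∈ colIdx raisedT A z ∧ (raisedT i).lo = offs 0 i := by
    intro i b hi hb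
    refine ⟨?_, by simp [raisedT, hi, lineT]⟩
    show (z - (raisedT i).cell, b) ∈ A
    simp only [raisedT, if_neg hi]
    exact hb
  have zero : ∀ b : ℝ, ((0 : Fin 8), b) ∈ colIdx raisedT A z ↔ (z, b) ∈ A := by
    intro b
    show (z - (raisedT 0).cell, b) ∈ A ↔ _
    simp [raisedT]
  have zero' : ∀ b : ℝ, ((0 : Fin 8), b) ∈ colIdx (lineT (0, 1) 0) A z ↔ (z, b) ∈ A := by
    intro b
    simp [mem_line]
  constructor
  · intro hb
    obtain ⟨⟨j, d⟩, hd, e⟩ := exists_shift hR ((zero (a + 2)).2 hb) (-2)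
    by_cases hj : j = 0
    · subst hj
      have : d = a := by
        simp [raisedT] at e
        linarith
      exact this ▸ (zero d).1 hd
    have hd' : (j, d) ∈ colIdx (lineT (0, 1) 0) A z := by
      have hdd : (z - (raisedT j).cell, d) ∈ A := hd
      simp only [raisedT, if_neg hj] at hdd
      exact hdd
    have := eq_of_lo_eq hY hd' ((zero' (a + 2)).2 hb) (by
      simp [offs]
      simp [raisedT, hj, lineT, offs] at e
      linarith)
    simp [hj] at this
  · intro hb
    obtain ⟨⟨i, c⟩, hc, e⟩ := exists_shift hY ((zero' a).2 hb) 2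
    by_cases hi : i = 0
    · subst hi
      have : c = a + 2 := by
        simp [offs] at e
        linarith
      exact this ▸ (zero' c).1 hc
    obtain ⟨hm, hlo⟩ := same i c hi hc
    have := eq_of_lo_eq hR hm ((zero a).2 hb) (by
      simp only [hlo]
      simp [offs] at e ⊢
      simp [raisedT]
      linarith)
    simp [hi] at this

end Vale.Agent.P043.Three
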