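import Vale.Agent.P043.Three.Block
import Vale.Agent.P043.Three.System

/-!
The tile of `ℝ³`: eight blocks without their holes, and in the footprint of hole `k` the pieces of
the `k`-th of the tiles `raisedT`, `lineT (1,0) κ`, `lineT (1,-1) κ`, `splitT κ`.
-/

namespace Vale.Agent.P043.Three

open Vale.Agent.P043.Aperiodic Vale.Agent.P043.Aperiodic.Euclid

/-- A horizontal cell and a height as a point of space. -/
def toPt (p : Hor × ℝ) : Pt := ![(p.1.1 : ℝ), (p.1.2 : ℝ), p.2]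

@[simp] theorem toPt_zero (p : Hor × ℝ) : toPt p 0 = (p.1.1 : ℝ) := rfl

@[simp] theorem toPt_one (p : Hor × ℝ) : toPt p 1 = (p.1.2 : ℝ) := rfl

@[simp] theorem toPt_two (p : Hor × ℝ) : toPt p 2 = p.2 := rfl

/-- The place of the `i`-th block. -/
noncomputable def pY (i : Fin 8) : Pt :=
  toPt ((lineT (0, 1) 0 i).cell, (lineT (0, 1) 0 i).lo)

/-- Footprint of hole `k` in a unit cell. -/
def Foot (k : Fin 4) (a b : ℝ) : Prop :=
  7 / 20 + (k : ℕ) / 200 ≤ a ∧ a < 7 / 20 + (k : ℕ) / 200 + 1 / 300 ∧ 7 / 20 ≤ b ∧ b < 3 / 8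

/-- Some piece of `P` lies in the cell `n` and covers the height `t`. -/
def Hit {ι : Type*} (P : ι → Piece) (n : Hor) (t : ℝ) : Prop :=
  ∃ i, (P i).cell = n ∧ (P i).lo ≤ t ∧ t < (P i).lo + (P i).len

/-- The tile seen in hole `k`. -/
def HoleHit (κ : ℝ) (k : Fin 4) (n : Hor) (t : ℝ) : Prop :=
  if k = 0 then Hit raisedT n t else if k = 1 then Hit (lineT (1, 0) κ) n t
  else if k = 2 then Hit (lineT (1, -1) κ) n t else Hit (splitT κ) n t

/-- The blocks of the tile. -/
def coreSet : Set Pt := {x | ∃ i, x - pY i ∈ blockCore}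

/-- The hole pieces of the tile. -/
def holeSet (κ : ℝ) : Set Pt :=
  {x | ∃ (k : Fin 4) (n : Hor), Foot k (x 0 - n.1) (x 1 - n.2) ∧ HoleHit κ k n (x 2)}

/-- **The tile.** -/
def omega3 (κ : ℝ) : Set Pt := coreSet ∪ holeSet κ

theorem pY_zero (i : Fin 8) : pY i 0 = 0 := by simp [pY, lineT]

theorem pY_one (i : Fin 8) : pY i 1 = ((i : ℕ) : ℝ) := by simp [pY, lineT]

theorem pY_two (i : Fin 8) : pY i 2 = offs 0 i := rfl

/-- Two integers at distance below one coincide. -/
theorem int_eq_of_abs_lt {m n : ℤ} (h : |(m : ℝ) - n| < 1) : m = n := by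
  obtain ⟨h1, h2⟩ := abs_lt.1 h
  have a1 : ((m - n : ℤ) : ℝ) < ((1 : ℤ) : ℝ) := by push_cast; linarith
  have a2 : ((-1 : ℤ) : ℝ) < ((m - n : ℤ) : ℝ) := by push_cast; linarith
  have b1 := Int.cast_lt.1 a1
  have b2 := Int.cast_lt.1 a2
  omega

theorem Foot.range {k : Fin 4} {a b : ℝ} (h : Foot k a b) :
    7 / 20 ≤ a ∧ a < 3 / 8 ∧ 7 / 20 ≤ b ∧ b < 3 / 8 := by
  obtain ⟨h1, h2, h3, h4⟩ := h
  have : ((k : ℕ) : ℝ) ≤ 3 := by exact_mod_cast Nat.le_of_lt_succ k.2
  have : (0 : ℝ) ≤ ((k : ℕ) : ℝ) := Nat.cast_nonneg _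
  exact ⟨by linarith, by linarith, h3, h4⟩

theorem Foot.unique {k k' : Fin 4} {a b : ℝ} {n n' : Hor} (h : Foot k (a - n.1) (b - n.2))
    (h' : Foot k' (a - n'.1) (b - n'.2)) : k = k' ∧ n = n' := by
  obtain ⟨r1, r2, r3, r4⟩ := h.range
  obtain ⟨s1, s2, s3, s4⟩ := h'.range
  have e1 : n.1 = n'.1 := int_eq_of_abs_lt (abs_lt.2 ⟨by linarith, by linarith⟩)
  have e2 : n.2 = n'.2 := int_eq_of_abs_lt (abs_lt.2 ⟨by linarith, by linarith⟩)
  refine ⟨?_, Prod.ext e1 e2⟩
  obtain ⟨u1, u2, -, -⟩ := h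
  obtain ⟨v1, v2, -, -⟩ := h'
  rw [e1] at u1 u2
  have e : ((k : ℕ) : ℤ) = ((k' : ℕ) : ℤ) :=
    int_eq_of_abs_lt (abs_lt.2 ⟨by push_cast; linarith, by push_cast; linarith⟩)
  exact Fin.ext (by exact_mod_cast e)

/-- The footprints are never in a block without holes. -/
theorem foot_not_core {k : Fin 4} {y : Pt} {n : Hor} (h : Foot k (y 0 - n.1) (y 1 - n.2)) :
    y ∉ blockCore := by
  rintro ⟨hb, hh⟩
  obtain ⟨r1, r2, r3, r4⟩ := h.range
  rcases hb with ⟨hc, -⟩ | hb
  · have c0 := hc 0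
    have c1 := hc 1
    have e1 : n.1 = 0 := int_eq_of_abs_lt (by
      push_cast; exact abs_lt.2 ⟨by linarith, by linarith⟩)
    have e2 : n.2 = 0 := int_eq_of_abs_lt (by
      push_cast; exact abs_lt.2 ⟨by linarith, by linarith⟩)
    obtain ⟨h1, h2, h3, h4⟩ := h
    simp only [e1, e2, Int.cast_zero, sub_zero] at h1 h2 h3 h4
    exact hh (Set.mem_iUnion.2 ⟨k, h1, h2, h3, h4, (hc 2).1, (hc 2).2⟩)
  · obtain ⟨a, ha⟩ := Set.mem_iUnion.1 hb
    have a0 := ha 0
    have a1 := ha 1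
    fin_cases a <;> simp [dlo, dhi, axisVec] at a0 a1
    · have e1 : n.1 = 1 := int_eq_of_abs_lt (by
        push_cast; exact abs_lt.2 ⟨by linarith, by linarith⟩)
      simp only [e1, Int.cast_one] at r1
      linarith
    · have e2 : n.2 = 1 := int_eq_of_abs_lt (by
        push_cast; exact abs_lt.2 ⟨by linarith, by linarith⟩)
      simp only [e2, Int.cast_one] at r3
      linarith
    · have e1 : n.1 = 0 := int_eq_of_abs_lt (by
        push_cast; exact abs_lt.2 ⟨by linarith, by linarith⟩)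
      simp only [e1, Int.cast_zero] at r1
      linarith

theorem foot_sub_int {k : Fin 4} {x u : Pt} {n m : Hor} (h0 : u 0 = m.1) (h1 : u 1 = m.2)
    (h : Foot k (x 0 - n.1) (x 1 - n.2)) :
    Foot k ((x - u) 0 - (n - m).1) ((x - u) 1 - (n - m).2) := by
  simpa [h0, h1, Prod.fst_sub, Prod.snd_sub] using h

/-- Over a footprint the tile is the tile seen in that hole. -/
theorem mem_omega3_hole {κ : ℝ} {k : Fin 4} {x : Pt} {n : Hor}
    (h : Foot k (x 0 - n.1) (x 1 - n.2)) : x ∈ omega3 κ ↔ HoleHit κ k n (x 2) := by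
  constructor
  · rintro (⟨i, hi⟩ | ⟨k', n', hf, hh⟩)
    · exact absurd hi (foot_not_core (foot_sub_int (m := (0, ((i : ℕ) : ℤ)))
        (by simp [pY_zero]) (by simp [pY_one]) h))
    · obtain ⟨rfl, rfl⟩ := hf.unique h
      exact hh
  · exact fun hh => Or.inr ⟨k, n, h, hh⟩

/-- In the middle of a cell the tile is the tile of the blocks. -/
theorem mem_omega3_mid {κ : ℝ} {x : Pt} {n : Hor} (a0 : 1 / 2 < x 0 - n.1) (a1 : x 0 - n.1 < 1)
    (b0 : 1 / 2 < x 1 - n.2) (b1 : x 1 - n.2 < 1) :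
    x ∈ omega3 κ ↔ Hit (lineT (0, 1) 0) n (x 2) := by
  constructor
  · rintro (⟨i, hi, -⟩ | ⟨k', n', hf, -⟩)
    · rcases hi with ⟨hc, -⟩ | hb
      · have c0 := hc 0
        have c1 := hc 1
        have c2 := hc 2
        simp only [Pi.sub_apply, pY_zero, pY_one, pY_two] at c0 c1 c2
        have e1 : n.1 = 0 := int_eq_of_abs_lt (by
          push_cast; exact abs_lt.2 ⟨by linarith, by linarith⟩)
        have e2 : n.2 = ((i : ℕ) : ℤ) := int_eq_of_abs_lt (by
          push_cast; exact abs_lt.2 ⟨by linarith, by linarith⟩)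
        refine ⟨i, Prod.ext (by simp [lineT, e1]) (by simp [lineT, e2]), ?_, ?_⟩
        · show offs 0 i ≤ x 2
          linarith
        · show x 2 < offs 0 i + 1
          linarith
      · exfalso
        obtain ⟨a, ha⟩ := Set.mem_iUnion.1 hb
        have p0 := ha 0
        have p1 := ha 1
        fin_cases a <;> simp [dlo, dhi, axisVec, pY_zero, pY_one] at p0 p1
        · have e1 : n.1 = 1 := int_eq_of_abs_lt (by
            push_cast; exact abs_lt.2 ⟨by linarith, by linarith⟩)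
          simp only [e1, Int.cast_one] at a0
          linarith
        · have e1 : n.1 = 0 := int_eq_of_abs_lt (by
            push_cast; exact abs_lt.2 ⟨by linarith, by linarith⟩)
          simp only [e1, Int.cast_zero] at a0
          linarith
        · have e1 : n.1 = 0 := int_eq_of_abs_lt (by
            push_cast; exact abs_lt.2 ⟨by linarith, by linarith⟩)
          simp only [e1, Int.cast_zero] at a0
          linarith
    · exfalso
      obtain ⟨r1, r2, -, -⟩ := hf.range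
      have e1 : n.1 = n'.1 := int_eq_of_abs_lt (abs_lt.2 ⟨by linarith, by linarith⟩)
      rw [e1] at a0
      linarith
  · rintro ⟨i, hc, l0, l1⟩
    refine Or.inl ⟨i, Or.inl ⟨fun l => ?_, fun hd => ?_⟩, fun hh => ?_⟩
    · change offs 0 i ≤ x 2 at l0
      change x 2 < offs 0 i + 1 at l1
      subst hc
      simp [lineT] at a0 a1 b0 b1
      fin_cases l <;> simp [pY_zero, pY_one, pY_two] <;> constructor <;> linarith
    all_goals
      subst hc
      simp [lineT] at a0 a1 b0 b1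
    · obtain ⟨a, ha⟩ := Set.mem_iUnion.1 hd
      have p0 := ha 0
      have p1 := ha 1
      fin_cases a <;> simp [dlo, dhi, pY_zero, pY_one] at p0 p1 <;> linarith
    · obtain ⟨k, hk⟩ := Set.mem_iUnion.1 hh
      obtain ⟨f1, f2, f3, f4, -⟩ := hk
      simp [pY_zero, pY_one] at f3 f4
      linarith

end Vale.Agent.P043.Three
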