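import Vale.Agent.P043.Three.Holes
import Vale.Agent.P043.Three.Tile

/-!
Measurability, boundedness and volume of the tile of `ℝ³` and of the union of its eight full blocks.
-/

namespace Vale.Agent.P043.Three

open MeasureTheory Set Function
open Vale.Agent.P043.Aperiodic Vale.Agent.P043.Aperiodic.Euclid

/-- The eight full blocks. -/
def fullSet : Set Pt := {x | ∃ i : Fin 8, x - pY i ∈ block}

/-- A box over a piece in hole `k`. -/
private def pieceBox (k : Fin 4) (p : Piece) : Set Pt :=
  univ.pi fun l => Ico (![(p.cell.1 : ℝ) + (7 / 20 + (k : ℕ) / 200), (p.cell.2 : ℝ) + 7 / 20, p.lo] l)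
    (![(p.cell.1 : ℝ) + (7 / 20 + (k : ℕ) / 200 + 1 / 300), (p.cell.2 : ℝ) + 3 / 8, p.lo + p.len] l)

private theorem mem_pieceBox {k : Fin 4} {p : Piece} {x : Pt} :
    x ∈ pieceBox k p ↔ Foot k (x 0 - p.cell.1) (x 1 - p.cell.2) ∧ p.lo ≤ x 2 ∧ x 2 < p.lo + p.len := by
  simp [pieceBox, Foot, Fin.forall_fin_succ, sub_lt_iff_lt_add', le_sub_iff_add_le', and_assoc]

private theorem measurableSet_pieceBox (k : Fin 4) (p : Piece) : MeasurableSet (pieceBox k p) :=
  MeasurableSet.univ_pi fun _ => measurableSet_Ico

private theorem isBounded_pieceBox (k : Fin 4) (p : Piece) :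
    Bornology.IsBounded (pieceBox k p) := by
  exact Bornology.IsBounded.pi fun _ => Metric.isBounded_Ico _ _

private theorem volume_pieceBox (k : Fin 4) (p : Piece) :
    volume (pieceBox k p) = ENNReal.ofReal (1 / 12000) * ENNReal.ofReal p.len := by
  rw [pieceBox, Real.volume_pi_Ico, Fin.prod_univ_three]
  simp only [Matrix.cons_val, add_sub_cancel_left, add_sub_add_left_eq_sub]
  rw [← ENNReal.ofReal_mul (by norm_num)]
  norm_num

/-- All pieces of one hole. -/
private def holePart {ι : Type} (k : Fin 4) (P : ι → Piece) : Set Pt := ⋃ i, pieceBox k (P i)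

private theorem mem_holePart {ι : Type} {k : Fin 4} {P : ι → Piece} {x : Pt} :
    x ∈ holePart k P ↔ ∃ n : Hor, Foot k (x 0 - n.1) (x 1 - n.2) ∧ Hit P n (x 2) := by
  simp only [holePart, mem_iUnion, mem_pieceBox, Hit]
  constructor
  · rintro ⟨i, h, h'⟩
    exact ⟨_, h, i, rfl, h'⟩
  · rintro ⟨n, h, i, rfl, h'⟩
    exact ⟨i, h, h'⟩

private theorem volume_holePart_le {ι : Type} [Fintype ι] (k : Fin 4) (P : ι → Piece)
    (h0 : ∀ i, 0 ≤ (P i).len) (h8 : ∑ i, (P i).len = 8) :
    volume (holePart k P) ≤ ENNReal.ofReal (8 / 12000) :=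
  calc volume (holePart k P) ≤ ∑' i, volume (pieceBox k (P i)) := measure_iUnion_le _
    _ = ENNReal.ofReal (1 / 12000) * ∑ i, ENNReal.ofReal (P i).len := by
        rw [tsum_fintype, Finset.mul_sum]
        simp only [volume_pieceBox]
    _ = ENNReal.ofReal (8 / 12000) := by
        rw [← ENNReal.ofReal_sum_of_nonneg fun i _ => h0 i, h8,
          ← ENNReal.ofReal_mul (by norm_num)]
        norm_num

private theorem holeSet_eq (κ : ℝ) : holeSet κ = holePart 0 raisedT ∪
    holePart 1 (lineT (1, 0) κ) ∪ holePart 2 (lineT (1, -1) κ) ∪ holePart 3 (splitT κ) := by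
  ext x
  simp [holeSet, mem_holePart, HoleHit, Fin.exists_fin_succ, or_assoc]

private theorem measurableSet_translate_block {S : Set Pt} (hS : MeasurableSet S) (a : Pt) :
    MeasurableSet {x | x - a ∈ S} :=
  (by fun_prop : Measurable fun x : Pt => x - a) hS

private theorem volume_translate_block (S : Set Pt) (a : Pt) :
    volume {x | x - a ∈ S} = volume S := by
  simp only [sub_eq_add_neg]
  exact measure_preimage_add_right volume (-a) S

theorem measurableSet_fullSet : MeasurableSet fullSet := by
  rw [fullSet, ofPred_exists]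
  exact .iUnion fun i => measurableSet_translate_block measurableSet_block _

theorem measurableSet_omega3 (κ : ℝ) : MeasurableSet (omega3 κ) := by
  have hc : MeasurableSet coreSet := by
    rw [coreSet, ofPred_exists]
    exact .iUnion fun i => measurableSet_translate_block measurableSet_blockCore _
  have hp : ∀ {ι : Type} [Countable ι] (k : Fin 4) (P : ι → Piece),
      MeasurableSet (holePart k P) := fun k P => .iUnion fun i => measurableSet_pieceBox k _
  rw [omega3, holeSet_eq]
  exact hc.union ((((hp _ _).union (hp _ _)).union (hp _ _)).union (hp _ _))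

theorem isBounded_omega3 (κ : ℝ) : Bornology.IsBounded (omega3 κ) := by
  have hp : ∀ {ι : Type} [Finite ι] (k : Fin 4) (P : ι → Piece),
      Bornology.IsBounded (holePart k P) := by
    intro ι _ k P
    exact Bornology.isBounded_iUnion.2 fun i => isBounded_pieceBox k (P i)
  rw [omega3, holeSet_eq]
  refine .union ?_ ((((hp _ _).union (hp _ _)).union (hp _ _)).union (hp _ _))
  refine (Bornology.isBounded_iUnion.2 fun i : Fin 8 =>
    Metric.isBounded_Icc (pY i) (pY i + (fun _ => 21 / 20 : Pt))).subset fun x ⟨i, hi⟩ => ?_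
  refine mem_iUnion.2 ⟨i, fun l => ?_, fun l => ?_⟩ <;>
    have := block_bounds (blockCore_subset_block hi) l <;>
    simp only [Pi.sub_apply, Pi.add_apply] at this ⊢ <;> linarith [this.1, this.2]

theorem volume_omega3_le {κ : ℝ} (h0 : 0 < κ) (h1 : κ < 1 / 4) : volume (omega3 κ) ≤ 8 := by
  have hc : volume coreSet ≤ ENNReal.ofReal (8 * (1 - 4 / 12000)) := by
    rw [coreSet, ofPred_exists]
    refine (measure_iUnion_le _).trans ?_
    simp only [volume_translate_block, volume_blockCore, tsum_fintype, Finset.sum_const,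
      Finset.card_univ, Fintype.card_fin, nsmul_eq_mul]
    rw [← ENNReal.ofReal_natCast, ← ENNReal.ofReal_mul (by norm_num)]
    norm_num
  have hr : ∀ i : Fin 8, (raisedT i).len = 1 := fun i => by
    unfold raisedT; split <;> rfl
  have hs : ∀ i : Fin 10, 0 ≤ (splitT κ i).len := fun i => by
    fin_cases i <;> simp [splitT, lineT] <;> linarith
  have hh : volume (holeSet κ) ≤ ENNReal.ofReal (32 / 12000) := by
    have g0 := volume_holePart_le 0 raisedT (fun i => by simp [hr]) (by simp [hr])
    have g1 := volume_holePart_le 1 (lineT (1, 0) κ) (fun i => by simp [lineT]) (by simp [lineT])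
    have g2 := volume_holePart_le 2 (lineT (1, -1) κ) (fun i => by simp [lineT]) (by simp [lineT])
    have g3 := volume_holePart_le 3 (splitT κ) hs
      (by simp [splitT, lineT, Fin.sum_univ_succ]; ring)
    have e : ENNReal.ofReal (32 / 12000) = ENNReal.ofReal (8 / 12000) + ENNReal.ofReal (8 / 12000)
        + ENNReal.ofReal (8 / 12000) + ENNReal.ofReal (8 / 12000) := by
      rw [← ENNReal.ofReal_add (by norm_num) (by norm_num), ← ENNReal.ofReal_add (by norm_num)
        (by norm_num), ← ENNReal.ofReal_add (by norm_num) (by norm_num)]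
      norm_num
    rw [holeSet_eq, e]
    exact (measure_union_le _ _).trans (add_le_add ((measure_union_le _ _).trans (add_le_add
      ((measure_union_le _ _).trans (add_le_add g0 g1)) g2)) g3)
  refine (measure_union_le _ _).trans ((add_le_add hc hh).trans (le_of_eq ?_))
  rw [← ENNReal.ofReal_add (by norm_num) (by norm_num)]
  norm_num

theorem volume_omega3_pos (κ : ℝ) : 0 < volume (omega3 κ) := by
  have h : 0 < volume {x : Pt | x - pY 0 ∈ blockCore} := by
    rw [volume_translate_block, volume_blockCore]
    norm_num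
  exact h.trans_le (measure_mono fun x hx => Or.inl ⟨0, hx⟩)

/-- The eight full blocks do not meet. -/
theorem fullSet_disjoint :
    Pairwise (Disjoint on fun i : Fin 8 => {x : Pt | x - pY i ∈ block}) := by
  intro i j hij
  wlog hlt : i < j generalizing i j
  · exact (this hij.symm (lt_of_le_of_ne (not_lt.1 hlt) hij.symm)).symm
  refine Set.disjoint_left.2 fun x hx hy => ?_
  have hij' : ((i : ℕ) : ℝ) + 1 ≤ (j : ℕ) := by exact_mod_cast hlt
  have a1 := block_bounds hx 1
  have b1 := block_bounds hy 1
  have a2 := block_bounds hx 2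
  have b2 := block_bounds hy 2
  simp only [Pi.sub_apply, pY_one, pY_two] at a1 b1 a2 b2
  have hji : ((j : ℕ) : ℝ) = (i : ℕ) + 1 := by
    have : (j : ℕ) < (i : ℕ) + 2 := by
      have : ((j : ℕ) : ℝ) < (((i : ℕ) + 2 : ℕ) : ℝ) := by push_cast; linarith
      exact_mod_cast this
    have h' : (j : ℕ) = (i : ℕ) + 1 := by omega
    exact_mod_cast h'
  rcases block_coord hx with h | ⟨a, had, ha, hrest⟩
  · have := (h.1 1).2
    simp only [Pi.sub_apply, pY_one] at this
    linarith
  obtain rfl : a = 1 := by
    by_contra hne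
    have := (hrest 1 (Ne.symm hne)).2
    simp only [Pi.sub_apply, pY_one] at this
    linarith
  have e0 := had 0
  have e1 := had 1
  have e2 := had 2
  simp [dlo, dhi, axisVec, pY_zero, pY_one, pY_two] at e0 e1 e2
  -- the lower block meets the upper one in its dent
  rcases block_coord hy with h | ⟨b, -, hb, -⟩
  · refine h.2 (mem_iUnion.2 ⟨1, fun l => ?_⟩)
    have hoff : offs 0 j = offs 0 i := by
      have := h.1 2
      simp only [Pi.sub_apply, pY_two] at this
      unfold offs at *
      split_ifs at * <;> linarith [this.1, this.2, e2.1, e2.2]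
    fin_cases l <;> simp [dlo, dhi, pY_zero, pY_one, pY_two, hoff] <;>
      constructor <;> linarith [e0.1, e0.2, e1.1, e1.2, e2.1, e2.2]
  · have ho : ∀ m : Fin 8, offs 0 m = 0 ∨ offs 0 m = 1 := fun m => by
      unfold offs; split_ifs <;> norm_num
    rcases ho i with hi | hi <;> rcases ho j with hj | hj <;>
      fin_cases b <;> simp [pY_zero, pY_one, pY_two] at hb <;>
        linarith [hb.1, hb.2, e0.2, e1.2, e2.1, e2.2]

theorem volume_fullSet : volume fullSet = 8 := by
  rw [fullSet, ofPred_exists, measure_iUnion fullSet_disjoint fun i =>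
    measurableSet_translate_block measurableSet_block _]
  simp [volume_translate_block, volume_block]

theorem fullSet_pairwise_null {i j : Fin 8} (h : i ≠ j) :
    volume ({x : Pt | x - pY i ∈ block} ∩ {x | x - pY j ∈ block}) = 0 := by
  rw [(fullSet_disjoint h).inter_eq, measure_empty]

end Vale.Agent.P043.Three
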