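import Vale.Agent.P043.Three.Lines

/-!
A common solution of the five equations has both stacks and single points (there is no complete
mapping of `ℤ/4` or `ℤ/8`), stacks do not drift along `(1,0)` and single points do, so it has no
period `((8M,0),τ)`.
-/

namespace Vale.Agent.P043.Three

/-- There is no complete mapping of `ℤ/4` or `ℤ/8`. -/
theorem no_complete_mapping {m : ℕ} [NeZero m] (hm : ∑ x : ZMod m, x ≠ 0) (f : ZMod m → ZMod m)
    (hf : Function.Injective f) (hf' : Function.Injective fun x => f x + x) : False := by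
  classical
  have h1 := (Finite.injective_iff_bijective.1 hf).sum_comp fun x => x
  have h2 := (Finite.injective_iff_bijective.1 hf').sum_comp fun x => x
  rw [Finset.sum_add_distrib, h1] at h2
  exact hm (add_right_cancel (b := ∑ x : ZMod m, x) (by rw [zero_add]; exact h2))

theorem unique_two {ι : Type*} [Fintype ι] {d : ι → ℕ} (h : ∑ x, d x = 2) {i j : ι} (hi : d i = 2)
    (hj : d j = 2) : i = j := by
  by_contra hne
  have := Finset.add_le_sum (f := d) (fun x _ => zero_le) (Finset.mem_univ i) (Finset.mem_univ j) hne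
  omega

theorem three_ones {ι : Type*} [Fintype ι] [DecidableEq ι] {d : ι → ℕ} (h : ∑ x, d x = 2)
    {i j k : ι} (hij : i ≠ j) (hik : i ≠ k) (hjk : j ≠ k) : d i + d j + d k ≤ 2 := by
  have := Finset.sum_le_sum_of_subset (f := d) (Finset.subset_univ {i, j, k})
  rw [Finset.sum_insert (by simp [hij, hik]), Finset.sum_pair hjk, h] at this
  omega

theorem exists_pos {ι : Type*} [Fintype ι] {d : ι → ℕ} (h : ∑ x, d x = 2) : ∃ i, d i ≠ 0 := by
  by_contra hc
  push Not at hc
  simp [hc] at h

/-- The combinatorial core on `(ℤ/8)²`. -/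
theorem both_kinds (d : ZMod 8 → ZMod 8 → ℕ) (hrow : ∀ y, ∑ x, d x y = 2)
    (hcol : ∀ x, ∑ y, d x y = 2) (hdiag : ∀ s, ∑ x, d x (s - x) = 2)
    (hone : ∀ x y, d x y = 1 → d (x + 4) y = 1 ∧ d x (y + 4) = 1) :
    (∃ x y, d x y = 1) ∧ ∃ x y, d x y = 2 := by
  have hle : ∀ x y, d x y ≤ 2 := fun x y =>
    (hrow y) ▸ Finset.single_le_sum (f := fun x => d x y) (fun _ _ => zero_le) (Finset.mem_univ x)
  constructor
  · by_contra hno
    push Not at hno
    have two : ∀ y, ∃ x, d x y = 2 := fun y => by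
      obtain ⟨x, hx⟩ := exists_pos (hrow y)
      exact ⟨x, by have := hle x y; have := hno x y; omega⟩
    choose f hf using two
    refine no_complete_mapping (m := 8) (by decide) f (fun a b e => ?_) fun a b e => ?_
    · exact unique_two (hcol (f b)) (i := a) (j := b) (by rw [← e]; exact hf a) (hf b)
    · have h1 : d (f a) (f a + a - f a) = 2 := by rw [add_sub_cancel_left]; exact hf a
      have h2 : d (f b) (f a + a - f b) = 2 := by
        simp only at e
        rw [e, add_sub_cancel_left]; exact hf b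
      have e' := unique_two (hdiag (f a + a)) h1 h2
      simp only at e
      rw [e'] at e
      exact add_left_cancel e
  · by_contra hno
    push Not at hno
    have one : ∀ y, ∃ x, d x y = 1 := fun y => by
      obtain ⟨x, hx⟩ := exists_pos (hrow y)
      exact ⟨x, by have := hle x y; have := hno x y; omega⟩
    let π : ZMod 8 →+* ZMod 4 := ZMod.castHom (by norm_num) (ZMod 4)
    let up : ZMod 4 → ZMod 8 := fun q => (q.val : ZMod 8)
    have hup : ∀ q, π (up q) = q := by decide
    have hker : ∀ a b : ZMod 8, π a = π b → a = b ∨ a = b + 4 := by decide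
    have h4 : ∀ a : ZMod 8, a ≠ a + 4 := by decide
    choose g hg using one
    -- the single points of two rows in the same class of columns or of antidiagonals
    refine no_complete_mapping (m := 4) (by decide) (fun q => π (g (up q))) (fun a b e => ?_)
      fun a b e => ?_
    · by_contra hab
      have hb : d (g (up a)) (up b) = 1 := by
        rcases hker _ _ e with h | h
        · rw [h]; exact hg _
        · rw [h]; exact (hone _ _ (hg _)).1
      have hne : up a ≠ up b := fun h => hab (by rw [← hup a, h, hup])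
      have hne' : up a + 4 ≠ up b := fun h => hab (by
        rw [← hup a, ← hup b, ← h, map_add, show π 4 = 0 by decide, add_zero])
      have := three_ones (hcol (g (up a))) (h4 (up a)) hne hne'
      rw [hg, (hone _ _ (hg _)).2, hb] at this
      omega
    · by_contra hab
      have e1 : π (g (up a) + up a) = π (g (up b) + up b) := by simpa [map_add, hup] using e
      set s := g (up a) + up a with hs
      have ha1 : d (g (up a)) (s - g (up a)) = 1 := by rw [hs, add_sub_cancel_left]; exact hg _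
      have ha2 : d (g (up a) + 4) (s - (g (up a) + 4)) = 1 := by
        have h44 : up a - 4 = up a + 4 := (show ∀ x : ZMod 8, x - 4 = x + 4 by decide) _
        rw [hs, show g (up a) + up a - (g (up a) + 4) = up a - 4 by abel, h44]
        exact (hone _ _ (hone _ _ (hg _)).1).2
      -- a third point of the same antidiagonal
      obtain ⟨x, hx, hx1⟩ : ∃ x, π x = π (g (up b)) ∧ d x (s - x) = 1 := by
        rcases hker _ _ e1 with h | h
        · exact ⟨g (up b), rfl, by rw [h, add_sub_cancel_left]; exact hg _⟩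
        · exact ⟨g (up b), rfl, by
            rw [h, show g (up b) + up b + 4 - g (up b) = up b + 4 by abel]
            exact (hone _ _ (hg _)).2⟩
      have hne : g (up a) ≠ x := fun h => hab (by
        simp only at e
        rw [h, hx] at e
        exact add_left_cancel e)
      have hne' : g (up a) + 4 ≠ x := fun h => hab (by
        simp only at e
        have : π (g (up a)) = π (g (up b)) := by
          rw [← hx, ← h, map_add, show π 4 = 0 by decide, add_zero]
        rw [this] at e
        exact add_left_cancel e)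
      have := three_ones (hdiag s) (h4 (g (up a))) hne hne'
      rw [ha1, ha2, hx1] at this
      omega

variable {κ : ℝ} {A : Set (Hor × ℝ)}

theorem twoPer (h : Solves κ A) : TwoPer A := two_periodic h

theorem not_odd_of_small (hκ0 : 0 < κ) (hκ1 : κ < 1 / 2) (k : ℤ) : κ ≠ 2 * (k : ℝ) + 1 := fun e => by
  rcases le_or_gt 0 k with hk | hk
  · have : (0 : ℝ) ≤ (k : ℝ) := by exact_mod_cast hk
    linarith
  · have : (k : ℝ) ≤ -1 := by exact_mod_cast (by omega : k ≤ -1)
    linarith

theorem zero_not_odd (k : ℤ) : (0 : ℝ) ≠ 2 * (k : ℝ) + 1 := fun e => by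
  have h : (2 * k + 1 : ℤ) = 0 := by exact_mod_cast e.symm
  omega

theorem cnt_periodic_of (g : Hor) (hper : ∀ z, cnt A (z + g) = cnt A z) (z : Hor) (k : ℤ) :
    cnt A (z + k • g) = cnt A z := by
  induction k using Int.induction_on with
  | zero => simp
  | succ n ih => rw [add_smul, one_smul, ← add_assoc, hper, ih]
  | pred n ih =>
    have := hper (z + (-(n : ℤ) - 1) • g)
    rw [add_assoc, show (-(n : ℤ) - 1) • g + g = (-(n : ℤ)) • g by rw [sub_smul, one_smul]; abel,
      ih] at this
    exact this.symm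

/-- The count is periodic modulo `8ℤ²`. -/
theorem cnt_congr (h : Solves κ A) {z w : Hor} (h1 : (8 : ℤ) ∣ w.1 - z.1) (h2 : (8 : ℤ) ∣ w.2 - z.2) :
    cnt A w = cnt A z := by
  obtain ⟨a, ha⟩ := h1
  obtain ⟨b, hb⟩ := h2
  have e : w = z + a • ((8 : ℤ) • ((1, 0) : Hor)) + b • ((8 : ℤ) • ((0, 1) : Hor)) := by
    ext <;> simp <;> linarith
  rw [e, cnt_periodic_of _ (fun z => cnt_add_eight h.ty (twoPer h) z),
    cnt_periodic_of _ (fun z => cnt_add_eight h.tx (twoPer h) z)]

/-- The count on `(ℤ/8)²`. -/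
noncomputable def cnt8 (A : Set (Hor × ℝ)) (x y : ZMod 8) : ℕ :=
  cnt A ((x.val : ℤ), (y.val : ℤ))

theorem cnt8_cast (h : Solves κ A) (z : Hor) : cnt8 A (z.1 : ZMod 8) (z.2 : ZMod 8) = cnt A z := by
  refine cnt_congr h ?_ ?_
  · have := (ZMod.intCast_eq_intCast_iff_dvd_sub z.1 (((z.1 : ZMod 8).val : ℤ)) 8).1 (by simp)
    exact this
  · have := (ZMod.intCast_eq_intCast_iff_dvd_sub z.2 (((z.2 : ZMod 8).val : ℤ)) 8).1 (by simp)
    exact this

/-- Eight consecutive places of a line, modulo `8`, are a full line. -/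
theorem line8_sum {g : Hor} {β : ℝ} (h : Solves κ A) (hg : PieceTiles (lineT g β) A) (x y : ZMod 8) :
    ∑ t : ZMod 8, cnt8 A (x + t * (g.1 : ZMod 8)) (y + t * (g.2 : ZMod 8)) = 2 := by
  rw [← window_sum hg (twoPer h) ((x.val : ℤ), (y.val : ℤ))]
  let e : Fin 8 → ZMod 8 := fun i => -(((i : ℕ) : ℤ) : ZMod 8)
  have he : Function.Bijective e := by decide
  rw [← he.sum_comp (fun t => cnt8 A (x + t * (g.1 : ZMod 8)) (y + t * (g.2 : ZMod 8)))]
  refine Finset.sum_congr rfl fun i _ => ?_
  rw [← cnt8_cast h]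
  simp only [e, Prod.fst_sub, Prod.snd_sub, Prod.smul_fst, Prod.smul_snd, smul_eq_mul, Int.cast_sub,
    Int.cast_mul, Int.cast_natCast, ZMod.natCast_zmod_val]
  congr 1 <;> ring

/-- Both kinds of columns occur. -/
theorem exists_both (h : Solves κ A) (hκ0 : 0 < κ) (hκ1 : κ < 1 / 2) :
    (∃ z, cnt A z = 1) ∧ ∃ z, cnt A z = 2 := by
  have hA := twoPer h
  have key := both_kinds (cnt8 A) (fun y => ?_) (fun x => ?_) (fun s => ?_) fun x y hxy => ?_
  · exact ⟨key.1.elim fun x hx => hx.elim fun y hy => ⟨_, hy⟩,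
      key.2.elim fun x hx => hx.elim fun y hy => ⟨_, hy⟩⟩
  · simpa using line8_sum h h.tx 0 y
  · simpa using line8_sum h h.ty x 0
  · simpa [sub_eq_add_neg] using line8_sum h h.tz 0 s
  · obtain ⟨a, ha, -⟩ := cnt_eq_one hxy
    refine ⟨?_, ?_⟩
    · have := (single_four h.tx hA (not_odd_of_small hκ0 hκ1) hxy ha).1
      rw [← cnt8_cast h] at this
      simpa using this
    · have := (single_four h.ty hA zero_not_odd hxy ha).1
      rw [← cnt8_cast h] at this
      simpa using this

/-- Stacks do not drift along `(1,0)`. -/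
theorem stack_eight (h : Solves κ A) (hκ0 : 0 < κ) (hκ1 : κ < 1 / 4) {z : Hor} {a : ℝ}
    (hz : cnt A z = 2) (ha : (z, a) ∈ A) : (z + (8, 0), a) ∈ A := by
  have hA := twoPer h
  have hz' : cnt A (z + (8, 0)) = 2 := by
    rw [show z + (8, 0) = z + (8 : ℤ) • ((1, 0) : Hor) by ext <;> simp,
      cnt_add_eight h.tx hA, hz]
  obtain ⟨b, hb, -⟩ := cnt_eq_two hz'
  -- the representative of `b` in `[a, a + 1)`
  set b' := b + ((-⌊b - a⌋ : ℤ) : ℝ) with hb'
  have hb'A : (z + (8, 0), b') ∈ A := mem_of_double h.tx hA hz' hb _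
  have hlo : a ≤ b' := by
    have := Int.floor_le (b - a)
    push_cast [hb']
    linarith
  have hhi : b' < a + 1 := by
    have := Int.lt_floor_add_one (b - a)
    push_cast [hb']
    linarith
  rcases hlo.eq_or_lt with he | hlt
  · rw [he]; exact hb'A
  -- otherwise the two split pieces overlap above `a + 1`
  have hL := h.ts z
  have hi : ((0 : Fin 10), a + ((1 : ℤ) : ℝ)) ∈ colIdx (splitT κ) A z := by
    show (z - (splitT κ 0).cell, _) ∈ A
    simpa [splitT, Prod.mk_zero_zero] using mem_of_double h.tx hA hz ha 1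
  have hj : ((1 : Fin 10), b') ∈ colIdx (splitT κ) A z := by
    show (z - (splitT κ 1).cell, b') ∈ A
    convert hb'A using 2
    ext <;> simp [splitT]
  set lo := max (a + 1) (b' + (1 - 2 * κ)) with hlo'
  set hi' := min (a + 2 - 2 * κ) (b' + 1) with hhi'
  have hlt' : lo < hi' := max_lt (lt_min (by linarith) (by linarith)) (lt_min (by linarith)
    (by linarith))
  have := le_max_left (a + 1) (b' + (1 - 2 * κ))
  have := le_max_right (a + 1) (b' + (1 - 2 * κ))
  have := min_le_left (a + 2 - 2 * κ) (b' + 1)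
  have := min_le_right (a + 2 - 2 * κ) (b' + 1)
  have := hL.disj _ hi _ hj ((lo + hi') / 2) (by simp [splitT]; linarith) (by simp [splitT]; linarith)
    (by simp [splitT]; linarith) (by simp [splitT]; linarith)
  simp at this

/-- Single points drift by `2κ` along eight steps of `(1,0)`. -/
theorem single_eight (h : Solves κ A) (hκ0 : 0 < κ) (hκ1 : κ < 1 / 2) {z : Hor} {a : ℝ}
    (hz : cnt A z = 1) (ha : (z, a) ∈ A) :
    cnt A (z + (8, 0)) = 1 ∧ (z + (8, 0), a + 2 * κ) ∈ A := by
  have hA := twoPer h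
  obtain ⟨h4, m4⟩ := single_four h.tx hA (not_odd_of_small hκ0 hκ1) hz ha
  obtain ⟨h8, m8⟩ := single_four h.tx hA (not_odd_of_small hκ0 hκ1) h4 m4
  have e : z + (4 : ℤ) • ((1, 0) : Hor) + (4 : ℤ) • ((1, 0) : Hor) = z + (8, 0) := by
    ext <;> simp <;> ring
  rw [e] at h8 m8
  exact ⟨h8, by rwa [show a + 2 * κ = a + κ + κ by ring]⟩

/-- **No periodic common solution.** -/
theorem no_period (h : Solves κ A) (hκ : Irrational κ) (hκ0 : 0 < κ) (hκ1 : κ < 1 / 4) (M : ℕ)
    (hM : 0 < M) (τ : ℝ) :
    ¬∀ (z : Hor) (a : ℝ), (z + (8 * (M : ℤ), 0), a + τ) ∈ A ↔ (z, a) ∈ A := by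
  intro hper
  have hA := twoPer h
  obtain ⟨⟨u, hu⟩, w, hw⟩ := exists_both h hκ0 (by linarith)
  obtain ⟨a, ha, -⟩ := cnt_eq_one hu
  obtain ⟨b, hb, -⟩ := cnt_eq_two hw
  have hwn : ∀ n : ℕ, cnt A (w + (8 * (n : ℤ), 0)) = 2 ∧ (w + (8 * (n : ℤ), 0), b) ∈ A := by
    intro n
    induction n with
    | zero => exact ⟨by simpa [Prod.mk_zero_zero] using hw, by simpa [Prod.mk_zero_zero] using hb⟩
    | succ n ih =>
      have e : w + (8 * ((n + 1 : ℕ) : ℤ), 0) = w + (8 * (n : ℤ), 0) + (8, 0) := by
        ext <;> simp; ring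
      refine ⟨?_, e ▸ stack_eight h hκ0 hκ1 ih.1 ih.2⟩
      rw [cnt_congr h (z := w) (by simp) (by simp)]
      exact hw
  have hun : ∀ n : ℕ, cnt A (u + (8 * (n : ℤ), 0)) = 1 ∧
      (u + (8 * (n : ℤ), 0), a + 2 * κ * n) ∈ A := by
    intro n
    induction n with
    | zero => exact ⟨by simpa [Prod.mk_zero_zero] using hu, by simpa [Prod.mk_zero_zero] using ha⟩
    | succ n ih =>
      have e : u + (8 * ((n + 1 : ℕ) : ℤ), 0) = u + (8 * (n : ℤ), 0) + (8, 0) := by
        ext <;> simp; ring
      have := single_eight h hκ0 (by linarith) ih.1 ih.2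
      rw [← e] at this
      exact ⟨this.1, by convert this.2 using 2; push_cast; ring⟩
  obtain ⟨k, hk⟩ := int_same h.tx (hwn M).2 ((hper w b).2 hb)
  obtain ⟨l, hl⟩ := mem_of_single h.tx hA (hun M).1 (hun M).2 ((hper u a).2 ha)
  have hτ : ((2 * (M : ℤ) : ℤ) : ℝ) * κ = ((k - 2 * l : ℤ) : ℝ) := by push_cast; linarith
  exact (Irrational.intCast_mul hκ (by omega : (2 * (M : ℤ)) ≠ 0)).ne_int _ hτ

end Vale.Agent.P043.Three
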