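import Vale.Agent.P043.Three.Block

/-!
Rigidity of the block: in a tiling by blocks the translates are invariant under the unit steps of
the second and third axis, and their first two coordinates lie in one coset of `ℤ²`.

Two blocks with all offsets below one share an open piece, so every dent can only be filled by the
bump of the same axis. The dents of the second and third axis pin all three coordinates of the
neighbour; the ridge of the first axis pins the first two.
-/

open MeasureTheory Set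

namespace Vale.Agent.P043.Three

open Vale.Agent.P043.Aperiodic Vale.Agent.P043.Aperiodic.Euclid

namespace Rigid

/-- A number of the open unit interval outside `[1/5, 2/5]`. -/
def Clear (s : ℝ) : Prop := 0 < s ∧ s < 1 ∧ (s < 1 / 5 ∨ 2 / 5 < s)

/-- Points with all coordinates clear. -/
def clearBox : Set Pt := {y | ∀ l, Clear (y l)}

lemma isOpen_clearBox : IsOpen clearBox := by
  have h : IsOpen {s : ℝ | Clear s} := by
    simp only [Clear, ofPred_and, ofPred_or]
    exact (isOpen_lt continuous_const continuous_id).inter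
      ((isOpen_lt continuous_id continuous_const).inter
        ((isOpen_lt continuous_id continuous_const).union
          (isOpen_lt continuous_const continuous_id)))
  have he : clearBox = ⋂ l : Fin 3, (fun y : Pt => y l) ⁻¹' {s | Clear s} := by
    ext y; simp [clearBox]
  rw [he]
  exact isOpen_iInter_of_finite fun l => h.preimage (continuous_apply l)

lemma clearBox_subset_block {y : Pt} (h : y ∈ clearBox) : y ∈ block := by
  refine Or.inl ⟨fun l => ⟨(h l).1.le, (h l).2.1⟩, fun hd => ?_⟩
  obtain ⟨a, ha⟩ := mem_iUnion.1 hd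
  have h0 := (h 0).2.2
  have h1 := (h 1).2.2
  have a0 := ha 0
  have a1 := ha 1
  fin_cases a <;> simp [dlo, dhi] at a0 a1 <;> rcases h0 with h0 | h0 <;>
    rcases h1 with h1 | h1 <;> linarith

lemma exists_clear_pair_aux {w : ℝ} (h0 : 0 ≤ w) (h1 : w < 1) :
    ∃ s, Clear s ∧ Clear (s + w) := by
  rcases lt_or_ge w (1 / 5) with h | h
  · exact ⟨(1 / 5 - w) / 2, ⟨by linarith, by linarith, Or.inl (by linarith)⟩,
      by linarith, by linarith, Or.inl (by linarith)⟩
  rcases le_or_gt w (2 / 5) with h' | h'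
  · exact ⟨19 / 20 - w, ⟨by linarith, by linarith, Or.inr (by linarith)⟩,
      by linarith, by linarith, Or.inr (by linarith)⟩
  · have := min_le_left (1 / 10 : ℝ) ((1 - w) / 2)
    have := min_le_right (1 / 10 : ℝ) ((1 - w) / 2)
    have : (0 : ℝ) < min (1 / 10) ((1 - w) / 2) := lt_min (by norm_num) (by linarith)
    exact ⟨min (1 / 10) ((1 - w) / 2), ⟨by linarith, by linarith, Or.inl (by linarith)⟩,
      by linarith, by linarith, Or.inr (by linarith)⟩

lemma exists_clear_pair {w : ℝ} (hw : |w| < 1) : ∃ s, Clear s ∧ Clear (s + w) := by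
  obtain ⟨hl, hr⟩ := abs_lt.1 hw
  rcases le_total 0 w with h | h
  · exact exists_clear_pair_aux h hr
  · obtain ⟨s, hs, hs'⟩ := exists_clear_pair_aux (w := -w) (by linarith) (by linarith)
    exact ⟨s + -w, hs', by simpa using hs⟩

variable {T : Set Pt}

/-- Blocks with all offsets below one coincide. -/
lemma eq_of_close (hT : RTiles block T) {t u : Pt} (ht : t ∈ T) (hu : u ∈ T)
    (h : ∀ l, |u l - t l| < 1) : u = t := by
  by_contra hne
  choose s hs hs' using fun l => exists_clear_pair (h l)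
  set U := {x : Pt | x - u ∈ clearBox} ∩ {x | x - t ∈ clearBox}
  have hU : IsOpen U := (isOpen_clearBox.preimage (by fun_prop)).inter
    (isOpen_clearBox.preimage (by fun_prop))
  have hUne : U.Nonempty := by
    refine ⟨s + u, ?_, ?_⟩
    · simpa [clearBox] using hs
    · intro l
      have := hs' l
      simp only [Pi.sub_apply, Pi.add_apply]
      rwa [add_sub_assoc]
  exact (hU.measure_pos volume hUne).ne' (measure_mono_null
    (inter_subset_inter (fun x hx => clearBox_subset_block (y := x - u) hx)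
      fun x hx => clearBox_subset_block (y := x - t) hx)
    (hT.2 hu ht hne))

/-- The interior of the dent of axis `a` of the block at `t`. -/
def dentBox (t : Pt) (a : Fin 3) : Set Pt :=
  {x | ∀ l, dlo a l < x l - t l ∧ x l - t l < dhi a l}

lemma dlo_lt_dhi (a l : Fin 3) : dlo a l < dhi a l := by
  fin_cases a <;> fin_cases l <;> simp [dlo, dhi, Fin.ext_iff] <;> norm_num

lemma dent_range (a l : Fin 3) : 0 ≤ dlo a l ∧ dhi a l ≤ 1 := by
  fin_cases a <;> fin_cases l <;> simp [dlo, dhi, Fin.ext_iff] <;> norm_num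

lemma isOpen_dentBox (t : Pt) (a : Fin 3) : IsOpen (dentBox t a) := by
  simp only [dentBox, ofPred_forall, ofPred_and]
  exact isOpen_iInter_of_finite fun l => (isOpen_lt continuous_const (by fun_prop)).inter
    (isOpen_lt (by fun_prop) continuous_const)

lemma dentBox_nonempty (t : Pt) (a : Fin 3) : (dentBox t a).Nonempty :=
  ⟨fun l => t l + (dlo a l + dhi a l) / 2, fun l => by
    have := dlo_lt_dhi a l
    dsimp only
    constructor <;> linarith⟩

/-- A block does not cover its own dents. -/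
lemma notMem_self {t x : Pt} {a : Fin 3} (hx : x ∈ dentBox t a) : x - t ∉ block := by
  rintro (⟨-, hd⟩ | hb)
  · exact hd (mem_iUnion.2 ⟨a, fun l => ⟨(hx l).1.le, (hx l).2⟩⟩)
  · obtain ⟨b, hb⟩ := mem_iUnion.1 hb
    have h1 := (hb b).1
    have h2 := (hx b).2
    have := (dent_range a b).2
    simp [dlo, axisVec] at h1
    linarith

/-- The dents of the second and third axis are filled only by the bumps of the same axis. -/
lemma key (hT : RTiles block T) {t u x : Pt} {a : Fin 3} (ha : a ≠ 0) (ht : t ∈ T) (hu : u ∈ T)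
    (hx : x ∈ dentBox t a) (hxu : x - u ∈ block) :
    x - u - axisVec a ∈ dent3 a ∧ ∀ l, |u l - (t - axisVec a) l| < 1 / 4 := by
  have close : (∀ l, |u l - t l| < 1) → False := fun hcl => by
    obtain rfl := eq_of_close hT ht hu hcl
    exact notMem_self hx hxu
  rcases hxu with ⟨hc, -⟩ | hb
  · refine (close fun l => ?_).elim
    have h1 := hc l
    have h2 := hx l
    have := dent_range a l
    simp only [Pi.sub_apply] at h1
    rw [abs_lt]
    constructor <;> linarith
  obtain ⟨b, hb⟩ := mem_iUnion.1 hb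
  by_cases hba : b = a
  · subst hba
    refine ⟨hb, fun l => ?_⟩
    have h1 := hb l
    have h2 := hx l
    simp only [Pi.sub_apply] at h1 ⊢
    rw [abs_lt]
    fin_cases b <;> fin_cases l <;> simp [dlo, dhi, axisVec] at ha h1 h2 ⊢ <;>
      constructor <;> linarith
  · refine (close fun l => ?_).elim
    have h1 := hb l
    have h2 := hx l
    simp only [Pi.sub_apply] at h1
    rw [abs_lt]
    fin_cases a <;> fin_cases b <;> fin_cases l <;> simp [dlo, dhi, axisVec] at ha hba h1 h2 ⊢ <;>
      constructor <;> linarith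

/-- If all blocks meeting a dent agree in coordinate `l`, that coordinate is the expected one. -/
lemma slide (hT : RTiles block T) {t : Pt} {a : Fin 3} {l : Fin 3} {c : ℝ}
    (hcov : ∀ x ∈ dentBox t a, ∀ u ∈ T, x - u ∈ block →
      x - u - axisVec a ∈ dent3 a ∧ u l = c) :
    c = t l - axisVec a l := by
  by_contra hne
  set v := c - (t l - axisVec a l) with hv
  have hw := dlo_lt_dhi a l
  have hv0 : v ≠ 0 := sub_ne_zero.2 hne
  set lo' := if 0 < v then dlo a l else max (dlo a l) (dhi a l + v) with hlo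
  set hi' := if 0 < v then min (dhi a l) (dlo a l + v) else dhi a l with hhi
  have hlh : lo' < hi' := by
    rcases lt_or_gt_of_ne hv0 with h | h
    · simp only [hlo, hhi, if_neg (not_lt.2 h.le)]
      exact max_lt hw (by linarith)
    · simp only [hlo, hhi, if_pos h]
      exact lt_min hw (by linarith)
  set W : Set Pt := dentBox t a ∩ {x | lo' < x l - t l ∧ x l - t l < hi'}
  have hWopen : IsOpen W := (isOpen_dentBox t a).inter (by
    rw [ofPred_and]
    exact (isOpen_lt continuous_const (by fun_prop)).inter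
      (isOpen_lt (by fun_prop) continuous_const))
  have hin : dlo a l ≤ lo' ∧ hi' ≤ dhi a l := by
    simp only [hlo, hhi]
    split_ifs <;> simp
  have hWne : W.Nonempty := by
    refine ⟨Function.update (fun i => t i + (dlo a i + dhi a i) / 2) l (t l + (lo' + hi') / 2),
      fun i => ?_, ?_⟩
    · rcases eq_or_ne i l with rfl | hi
      · rw [Function.update_self]
        constructor <;> linarith
      · rw [Function.update_of_ne hi]
        have := dlo_lt_dhi a i
        constructor <;> linarith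
    · simp only [mem_ofPred_eq, Function.update_self]
      constructor <;> linarith
  obtain ⟨x, ⟨hx, hx'⟩, u, hu, hxu⟩ := exists_mem_of_ae hWopen hWne hT.1
  obtain ⟨hd, huc⟩ := hcov x hx u hu hxu
  have hd' := hd l
  simp only [Pi.sub_apply, huc] at hd'
  rcases lt_or_gt_of_ne hv0 with h | h
  · simp only [hlo, hhi, if_neg (not_lt.2 h.le)] at hx'
    have := le_max_right (dlo a l) (dhi a l + v)
    linarith [hx'.1, hd'.2]
  · simp only [hlo, hhi, if_pos h] at hx'
    have := min_le_right (dhi a l) (dlo a l + v)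
    linarith [hx'.2, hd'.1]

lemma sub_axis_mem (hT : RTiles block T) {t : Pt} (ht : t ∈ T) {a : Fin 3} (ha : a ≠ 0) :
    t - axisVec a ∈ T := by
  obtain ⟨x₀, hx₀, u₀, hu₀, hxu₀⟩ :=
    exists_mem_of_ae (isOpen_dentBox t a) (dentBox_nonempty t a) hT.1
  have h0 := (key hT ha ht hu₀ hx₀ hxu₀).2
  suffices u₀ = t - axisVec a by rwa [← this]
  funext l
  refine slide hT (c := u₀ l) fun x hx u hu hxu => ?_
  obtain ⟨hd, h1⟩ := key hT ha ht hu hx hxu
  refine ⟨hd, ?_⟩
  rw [eq_of_close hT hu₀ hu fun i => ?_]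
  have := abs_lt.1 (h0 i)
  have := abs_lt.1 (h1 i)
  rw [abs_lt]
  constructor <;> linarith

lemma add_axis_mem (hT : RTiles block T) {t : Pt} (ht : t ∈ T) {a : Fin 3} (ha : a ≠ 0) :
    t + axisVec a ∈ T := by
  have hopen : IsOpen {x : Pt | ∀ l, 7 / 10 < x l - (t + axisVec a) l ∧
      x l - (t + axisVec a) l < 9 / 10} := by
    simp only [ofPred_forall, ofPred_and]
    exact isOpen_iInter_of_finite fun l => (isOpen_lt continuous_const (by fun_prop)).inter
      (isOpen_lt (by fun_prop) continuous_const)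
  obtain ⟨x, hx, u, hu, hxu⟩ := exists_mem_of_ae hopen
    ⟨fun l => (t + axisVec a) l + 4 / 5, fun l => by dsimp only; constructor <;> linarith⟩ hT.1
  suffices hclose : ∀ l, |u l - (t + axisVec a) l| < 1 by
    have := eq_of_close hT ht (sub_axis_mem hT hu ha) fun l => by
      have := hclose l
      simp only [Pi.add_apply, Pi.sub_apply] at this ⊢
      rwa [show u l - axisVec a l - t l = u l - (t l + axisVec a l) by ring]
    rwa [← this, sub_add_cancel]
  intro l
  have h2 := hx l
  rw [abs_lt]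
  rcases hxu with ⟨hc, -⟩ | hb
  · have h1 := hc l
    simp only [Pi.sub_apply] at h1
    constructor <;> linarith
  · obtain ⟨b, hb⟩ := mem_iUnion.1 hb
    have h1 := hb l
    simp only [Pi.sub_apply] at h1
    fin_cases b <;> fin_cases l <;> simp [dlo, dhi, axisVec] at h1 h2 ⊢ <;>
      constructor <;> linarith

/-- Blocks whose first coordinates differ by less than one agree there, and differ by an integer
in the second. -/
lemma flat_eq (hT : RTiles block T) {t u : Pt} (ht : t ∈ T) (hu : u ∈ T) (h : |u 0 - t 0| < 1) :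
    u 0 = t 0 ∧ ∃ n : ℤ, u 1 = t 1 + n := by
  let G : AddSubgroup Pt :=
    { carrier := {g | ∀ s, s + g ∈ T ↔ s ∈ T}
      add_mem' := fun {g g'} hg hg' s => by rw [← add_assoc, hg', hg]
      zero_mem' := fun s => by simp
      neg_mem' := fun {g} hg s => by simpa using (hg (s + -g)).symm }
  have hunit : ∀ a : Fin 3, a ≠ 0 → axisVec a ∈ G := fun a ha s =>
    ⟨fun h => by simpa using sub_axis_mem hT h ha, fun h => add_axis_mem hT h ha⟩
  set g : Pt := ⌊u 1 - t 1⌋ • axisVec 1 + ⌊u 2 - t 2⌋ • axisVec 2 with hg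
  have hgG : g ∈ G := G.add_mem (G.zsmul_mem (hunit 1 (by decide)) _)
    (G.zsmul_mem (hunit 2 (by decide)) _)
  have e : u = t + g := eq_of_close hT ((hgG t).2 ht) hu fun l => by
    have := abs_lt.1 h
    have := Int.floor_le (u 1 - t 1); have := Int.lt_floor_add_one (u 1 - t 1)
    have := Int.floor_le (u 2 - t 2); have := Int.lt_floor_add_one (u 2 - t 2)
    rw [abs_lt]
    fin_cases l <;> simp [hg, axisVec] <;> constructor <;> linarith
  refine ⟨?_, ⌊u 1 - t 1⌋, ?_⟩ <;> rw [e] <;> simp [hg, axisVec]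

/-- The ridge is filled only by the ridge bump. -/
lemma key_zero (hT : RTiles block T) {t u x : Pt} (ht : t ∈ T) (hu : u ∈ T)
    (hx : x ∈ dentBox t 0) (hxu : x - u ∈ block) :
    x - u - axisVec 0 ∈ dent3 0 ∧ |u 0 - t 0 + 1| < 1 / 4 ∧ |u 1 - t 1| < 1 / 4 := by
  have h0 := hx 0
  have h1 := hx 1
  simp [dlo, dhi] at h0 h1
  rcases hxu with ⟨hc, hd⟩ | hb
  · have c0 := hc 0
    have c1 := hc 1
    simp only [Pi.sub_apply] at c0 c1
    obtain ⟨e0, n, hn⟩ := flat_eq hT ht hu (abs_lt.2 ⟨by linarith, by linarith⟩)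
    have l1 : (-1 : ℤ) < n := Int.cast_lt.1 (show ((-1 : ℤ) : ℝ) < n by push_cast; linarith)
    have l2 : n < 1 := Int.cast_lt.1 (show (n : ℝ) < (1 : ℤ) by push_cast; linarith)
    obtain rfl : n = 0 := by omega
    refine absurd (mem_iUnion.2 ⟨0, fun l => ?_⟩) hd
    have := hx l
    have := hc l
    fin_cases l <;> simp [dlo, dhi] at * <;> constructor <;> linarith
  · obtain ⟨b, hb⟩ := mem_iUnion.1 hb
    have b0 := hb 0
    have b1 := hb 1
    simp only [Pi.sub_apply] at b0 b1
    by_cases hb0 : b = 0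
    · subst hb0
      simp [dlo, dhi, axisVec] at b0 b1
      exact ⟨hb, abs_lt.2 ⟨by linarith, by linarith⟩, abs_lt.2 ⟨by linarith, by linarith⟩⟩
    · fin_cases b <;> simp [dlo, dhi, axisVec] at hb0 b0 b1 <;>
      · have := (flat_eq hT ht hu (abs_lt.2 ⟨by linarith, by linarith⟩)).1
        linarith

lemma exists_left (hT : RTiles block T) {t : Pt} (ht : t ∈ T) :
    ∃ u ∈ T, u 0 = t 0 - 1 ∧ u 1 = t 1 := by
  obtain ⟨x₀, hx₀, u₀, hu₀, hxu₀⟩ :=
    exists_mem_of_ae (isOpen_dentBox t 0) (dentBox_nonempty t 0) hT.1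
  obtain ⟨-, a0, a1⟩ := key_zero hT ht hu₀ hx₀ hxu₀
  have same : ∀ x ∈ dentBox t 0, ∀ u ∈ T, x - u ∈ block →
      x - u - axisVec 0 ∈ dent3 0 ∧ u 0 = u₀ 0 ∧ u 1 = u₀ 1 := by
    intro x hx u hu hxu
    obtain ⟨hd, b0, b1⟩ := key_zero hT ht hu hx hxu
    have := abs_lt.1 a0; have := abs_lt.1 a1; have := abs_lt.1 b0; have := abs_lt.1 b1
    obtain ⟨e0, n, hn⟩ := flat_eq hT hu₀ hu (abs_lt.2 ⟨by linarith, by linarith⟩)
    have l1 : (-1 : ℤ) < n := Int.cast_lt.1 (show ((-1 : ℤ) : ℝ) < n by push_cast; linarith)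
    have l2 : n < 1 := Int.cast_lt.1 (show (n : ℝ) < (1 : ℤ) by push_cast; linarith)
    obtain rfl : n = 0 := by omega
    exact ⟨hd, e0, by simpa using hn⟩
  refine ⟨u₀, hu₀, ?_, ?_⟩
  · have := slide hT (l := 0) (c := u₀ 0) fun x hx u hu hxu =>
      ⟨(same x hx u hu hxu).1, (same x hx u hu hxu).2.1⟩
    simpa [axisVec] using this
  · have := slide hT (l := 1) (c := u₀ 1) fun x hx u hu hxu =>
      ⟨(same x hx u hu hxu).1, (same x hx u hu hxu).2.2⟩
    simpa [axisVec] using this

lemma exists_left_nat (hT : RTiles block T) {t : Pt} (ht : t ∈ T) :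
    ∀ n : ℕ, ∃ u ∈ T, u 0 = t 0 - n ∧ u 1 = t 1
  | 0 => ⟨t, ht, by simp, rfl⟩
  | n + 1 => by
    obtain ⟨u, hu, e0, e1⟩ := exists_left_nat hT ht n
    obtain ⟨v, hv, f0, f1⟩ := exists_left hT hu
    exact ⟨v, hv, by rw [f0, e0]; push_cast; ring, f1.trans e1⟩

lemma rigid_xy_of_le (hT : RTiles block T) {t u : Pt} (ht : t ∈ T) (hu : u ∈ T)
    (h : u 0 ≤ t 0) : ∃ m n : ℤ, u 0 = t 0 + m ∧ u 1 = t 1 + n := by
  obtain ⟨v, hv, e0, e1⟩ := exists_left_nat hT ht ⌊t 0 - u 0⌋₊
  have := Nat.floor_le (sub_nonneg.2 h)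
  have := Nat.lt_floor_add_one (t 0 - u 0)
  obtain ⟨f0, n, f1⟩ := flat_eq hT hv hu (abs_lt.2 ⟨by linarith, by linarith⟩)
  exact ⟨-(⌊t 0 - u 0⌋₊ : ℤ), n, by push_cast; linarith, by rw [f1, e1]⟩

end Rigid

/-- In a tiling by blocks the first two coordinates lie in one coset of `ℤ²`. -/
theorem rigid_xy {T : Set Pt} (hT : RTiles block T) {t u : Pt} (ht : t ∈ T) (hu : u ∈ T) :
    ∃ m n : ℤ, u 0 = t 0 + m ∧ u 1 = t 1 + n := by
  rcases le_total (u 0) (t 0) with h | h
  · exact Rigid.rigid_xy_of_le hT ht hu h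
  · obtain ⟨m, n, h0, h1⟩ := Rigid.rigid_xy_of_le hT hu ht h
    exact ⟨-m, -n, by rw [h0]; push_cast; ring, by rw [h1]; push_cast; ring⟩

/-- A tiling by blocks is invariant under the vertical unit step. -/
theorem mem_up {T : Set Pt} (hT : RTiles block T) {t : Pt} (ht : t ∈ T) :
    t + axisVec 2 ∈ T :=
  Rigid.add_axis_mem hT ht (by decide)

/-- A tiling by blocks is invariant under the downward vertical unit step. -/
theorem mem_down {T : Set Pt} (hT : RTiles block T) {t : Pt} (ht : t ∈ T) :
    t - axisVec 2 ∈ T :=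
  Rigid.sub_axis_mem hT ht (by decide)

end Vale.Agent.P043.Three
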