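import Vale.Agent.P043.Three.Exist
import Vale.Agent.P043.Three.NoPeriod
import Vale.Agent.P043.Three.Rigid
import Vale.Agent.P043.Three.Holes
import Vale.Agent.P043.Three.Descend
import Vale.Agent.P043.Three.Measure

/-!
No periodic set tiles space with the tile, so the periodic tiling conjecture fails in `ℝ³`.

A periodic tiling by the tile gives a periodic packing of the full blocks, hence, counting volume, a
tiling by blocks. Rigidity makes the translates horizontally integral, they solve the five systems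
of interval pieces, and a full lattice of periods contains a period `((8M,0),τ)`.
-/

open MeasureTheory Set

namespace Vale.Agent.P043.Three

open Vale.Agent.P043.Aperiodic Vale.Agent.P043.Aperiodic.Euclid

theorem volume_inter_shift (S : Set Pt) (u v : Pt) :
    volume ({x | x - u ∈ S} ∩ {x | x - v ∈ S}) = volume (S ∩ {x | x - (v - u) ∈ S}) := by
  rw [← measure_preimage_add_right volume u ({x | x - u ∈ S} ∩ {x | x - v ∈ S})]
  congr 1
  ext x
  simp [sub_sub_eq_add_sub]

/-- Full blocks of distinct translates meet in null sets. -/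
theorem pack_blocks {κ : ℝ} {A : Set Pt} (hA : RTiles (omega3 κ) A) {a b : Pt} (ha : a ∈ A)
    (hb : b ∈ A) (hne : a ≠ b) (i j : Fin 8) :
    volume ({x | x - (a + pY i) ∈ block} ∩ {x | x - (b + pY j) ∈ block}) = 0 := by
  by_contra h
  rw [volume_inter_shift] at h
  have h' := block_overlap h
  rw [← volume_inter_shift] at h'
  refine h' (measure_mono_null (fun x hx => ?_) (hA.2 ha hb hne))
  exact ⟨Or.inl ⟨i, by rw [sub_sub]; exact hx.1⟩, Or.inl ⟨j, by rw [sub_sub]; exact hx.2⟩⟩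

/-- **No periodic set tiles space with the tile.** -/
theorem no_rperiodic {κ : ℝ} (hκ : Irrational κ) (hκ0 : 0 < κ) (hκ1 : κ < 1 / 4) {A : Set Pt}
    (hA : RTiles (omega3 κ) A) : ¬RPeriodic A := by
  intro hper
  have hpack : A.Pairwise fun a b => volume ({x | x - a ∈ fullSet} ∩ {x | x - b ∈ fullSet}) = 0 := by
    intro a ha b hb hne
    refine measure_mono_null (fun x hx => ?_)
      (measure_iUnion_null fun i => measure_iUnion_null fun j => pack_blocks hA ha hb hne i j)
    obtain ⟨⟨i, hi⟩, ⟨j, hj⟩⟩ := hx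
    exact mem_iUnion.2 ⟨i, mem_iUnion.2 ⟨j, by show _ ∈ block; rw [← sub_sub]; exact hi,
      by show _ ∈ block; rw [← sub_sub]; exact hj⟩⟩
  have hY : RTiles fullSet A := tiles_of_packing hper (measurableSet_omega3 κ) measurableSet_fullSet
    (volume_omega3_pos κ).ne' ((volume_omega3_le hκ0 hκ1).trans_eq volume_fullSet.symm) hA hpack
  set T : Set Pt := {u | ∃ a ∈ A, ∃ i, u = a + pY i}
  have hT : RTiles block T := by
    refine ⟨hY.1.mono fun x hx => ?_, ?_⟩
    · obtain ⟨a, ha, i, hi⟩ := hx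
      exact ⟨a + pY i, ⟨a, ha, i, rfl⟩, by rw [← sub_sub]; exact hi⟩
    · rintro _ ⟨a, ha, i, rfl⟩ _ ⟨b, hb, j, rfl⟩ hne
      by_cases hab : a = b
      · subst hab
        have hij : i ≠ j := fun h => hne (by rw [h])
        show volume ({x | x - (a + pY i) ∈ block} ∩ {x | x - (a + pY j) ∈ block}) = 0
        rw [volume_inter_shift, add_sub_add_left_eq_sub, ← volume_inter_shift]
        exact fullSet_pairwise_null hij
      · exact pack_blocks hA ha hb hab i j
  obtain ⟨x, a₀, ha₀, -⟩ := hA.1.exists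
  have hint : ∀ a ∈ A, ∃ n : Hor, a 0 = a₀ 0 + n.1 ∧ a 1 = a₀ 1 + n.2 := by
    intro a ha
    obtain ⟨m, n, h0, h1⟩ := rigid_xy hT (⟨a₀, ha₀, 0, rfl⟩ : a₀ + pY 0 ∈ T)
      (⟨a, ha, 0, rfl⟩ : a + pY 0 ∈ T)
    simp [pY_zero, pY_one] at h0 h1
    exact ⟨(m, n), h0, h1⟩
  have hS := solves_of_rtiles hκ0 hκ1 hA hint
  obtain ⟨v, hv, hvA⟩ := hper
  have hn : ∀ i, ∃ n : Hor, v i 0 = n.1 ∧ v i 1 = n.2 := fun i => by
    obtain ⟨n, h0, h1⟩ := hint _ ((hvA i a₀).2 ha₀)
    simp at h0 h1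
    exact ⟨n, h0, h1⟩
  choose n h0 h1 using hn
  -- two horizontal periods are independent
  obtain ⟨i, j, hD⟩ : ∃ i j, (n i).1 * (n j).2 - (n j).1 * (n i).2 ≠ 0 := by
    by_contra hall
    push Not at hall
    have hu : IsUnit (Matrix.of v) :=
      Matrix.linearIndependent_rows_iff_isUnit.1 (show LinearIndependent ℝ (Matrix.of v).row from hv)
    rw [Matrix.isUnit_iff_isUnit_det] at hu
    refine hu.ne_zero ?_
    have hr : ∀ i j, v i 0 * v j 1 = v j 0 * v i 1 := fun i j => by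
      have := congrArg (fun z : ℤ => (z : ℝ)) (hall i j)
      push_cast at this
      rw [h0, h0, h1, h1]
      linarith
    simp [Matrix.det_fin_three]
    linear_combination v 2 2 * hr 0 1 + v 1 2 * hr 2 0 + v 0 2 * hr 1 2
  set D := (n i).1 * (n j).2 - (n j).1 * (n i).2 with hDdef
  let P : AddSubgroup Pt :=
    { carrier := {g | ∀ a, a + g ∈ A ↔ a ∈ A}
      add_mem' := fun {g g'} hg hg' s => by rw [← add_assoc, hg', hg]
      zero_mem' := fun s => by simp
      neg_mem' := fun {g} hg s => by simpa using (hg (s + -g)).symm }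
  set g : Pt := (8 * D.sign) • ((n j).2 • v i - (n i).2 • v j) with hg
  have hgP : g ∈ P :=
    P.zsmul_mem (P.sub_mem (P.zsmul_mem (hvA i) _) (P.zsmul_mem (hvA j) _)) _
  have g0 : g 0 = ((8 * (D.natAbs : ℤ) : ℤ) : ℝ) := by
    rw [← Int.sign_mul_self_eq_natAbs D]
    simp only [hg, Pi.mul_apply, Pi.intCast_apply, Pi.sub_apply, zsmul_eq_mul, h0, hDdef]
    push_cast
    ring
  have g1 : g 1 = 0 := by
    simp only [hg, Pi.mul_apply, Pi.intCast_apply, Pi.sub_apply, zsmul_eq_mul, h1]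
    push_cast
    ring
  have hgpt : toPt ((8 * (D.natAbs : ℤ), 0), g 2) = g := by
    funext l
    fin_cases l <;> simp [g0, g1]
  refine no_period hS hκ hκ0 hκ1 D.natAbs (Int.natAbs_pos.2 hD) (g 2) fun z a => ?_
  show a₀ + toPt (z + (8 * (D.natAbs : ℤ), 0), a + g 2) ∈ A ↔ a₀ + toPt (z, a) ∈ A
  rw [show ((z + (8 * (D.natAbs : ℤ), 0), a + g 2) : Hor × ℝ) =
    (z, a) + ((8 * (D.natAbs : ℤ), 0), g 2) from rfl, toPt_add, hgpt, ← add_assoc]
  exact hgP _

/-- **The periodic tiling conjecture fails in `ℝ³`.** -/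
theorem exists_aperiodic_three :
    ∃ Ω : Set (Fin 3 → ℝ), MeasurableSet Ω ∧ Bornology.IsBounded Ω ∧ 0 < volume Ω ∧
      (∃ A, RTiles Ω A) ∧ ∀ A, RTiles Ω A → ¬RPeriodic A := by
  have h2 : Real.sqrt 2 < 2 := by
    rw [Real.sqrt_lt' (by norm_num)]; norm_num
  have hκ : Irrational (Real.sqrt 2 / (8 : ℕ)) := irrational_sqrt_two.div_natCast (by norm_num)
  set κ := Real.sqrt 2 / (8 : ℕ) with hdef
  have hκ0 : 0 < κ := by rw [hdef]; positivity
  have hκ1 : κ < 1 / 4 := by rw [hdef]; push_cast; linarith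
  exact ⟨omega3 κ, measurableSet_omega3 κ, isBounded_omega3 κ, volume_omega3_pos κ,
    ⟨_, rtiles_sol hκ0 hκ1⟩, fun A hA => no_rperiodic hκ hκ0 hκ1 hA⟩

end Vale.Agent.P043.Three
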